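import Mathlib.Analysis.SpecialFunctions.Complex.Circle
import Mathlib.Analysis.SpecialFunctions.Sqrt

/-! Littlewood polynomials on the unit circle, near flatness and the normalised phase slope. -/

namespace Vale.Agent.P110

open scoped BigOperators
open Complex

/-- `∑_{k<N} x k * exp(i k θ)`. -/
noncomputable def evalP (x : ℕ → ℝ) (N : ℕ) (θ : ℝ) : ℂ :=
  ∑ k ∈ Finset.range N, (x k : ℂ) * Complex.exp ((k : ℂ) * Complex.I * (θ : ℂ))

/-- `(1 - c)√N ≤ |P| ≤ (1 + c)√N` on the unit circle. -/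
def NearFlat (x : ℕ → ℝ) (N : ℕ) (c : ℝ) : Prop :=
  ∀ θ : ℝ, (1 - c) * Real.sqrt N ≤ ‖evalP x N θ‖ ∧ ‖evalP x N θ‖ ≤ (1 + c) * Real.sqrt N

/-- The normalised phase derivative `Re (z P'(z) / P(z)) / N` at `z = exp(iθ)`. -/
noncomputable def phaseSlope (x : ℕ → ℝ) (N : ℕ) (θ : ℝ) : ℝ :=
  (evalP (fun k => (k : ℝ) * x k) N θ / evalP x N θ).re / N

/-- The coefficient sequence of a sign vector. -/
def signSeq {N : ℕ} (b : Fin N → Bool) (k : ℕ) : ℝ :=
  if h : k < N then (if b ⟨k, h⟩ then 1 else -1) else 0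

end Vale.Agent.P110
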