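import Mathlib.Analysis.Complex.BorelCaratheodory
import Mathlib.Analysis.Complex.AbsMax
import Mathlib.Analysis.Complex.Liouville
import Mathlib.Analysis.Complex.HasPrimitives
import Mathlib.Analysis.Calculus.MeanValue
import Mathlib.Algebra.Polynomial.Eval.Defs
import Mathlib.Algebra.Polynomial.BigOperators
import Mathlib.Analysis.SpecialFunctions.Log.Basic
import Mathlib.Analysis.SpecialFunctions.ExpDeriv
import Vale.Agent.P110.Defs

/-! Local linearity of the phase of a near-flat polynomial with real coefficients. -/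

namespace Vale.Agent.P110

open scoped BigOperators
open Complex Metric

noncomputable def Fm (x : ℕ → ℝ) (N m : ℕ) (w : ℂ) : ℂ :=
  (∑ k ∈ Finset.range N, ((x k * ((k : ℝ) / N) ^ m : ℝ) : ℂ)
      * Complex.exp ((k : ℂ) * I * w)) / (Real.sqrt N : ℂ)

noncomputable def qf (x : ℕ → ℝ) (N : ℕ) (w : ℂ) : ℂ := Fm x N 1 w / Fm x N 0 w

def Good (x : ℕ → ℝ) (N : ℕ) (C : ℝ) : Prop :=
  0 < N ∧ 4 ≤ C ∧ ∀ θ : ℝ, |‖Fm x N 0 (θ : ℂ)‖ - 1| ≤ Real.exp (-C) / 6

variable {x : ℕ → ℝ} {N : ℕ} {C : ℝ}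

lemma differentiable_Fm (x : ℕ → ℝ) (N m : ℕ) : Differentiable ℂ (Fm x N m) := by
  unfold Fm
  fun_prop

lemma hasDerivAt_Fm (x : ℕ → ℝ) {N : ℕ} (hN : 0 < N) (m : ℕ) (w : ℂ) :
    HasDerivAt (Fm x N m) (I * N * Fm x N (m + 1) w) w := by
  have hN' : (N : ℂ) ≠ 0 := by exact_mod_cast hN.ne'
  have h : ∀ k ∈ Finset.range N, HasDerivAt
      (fun w : ℂ => ((x k * ((k : ℝ) / N) ^ m : ℝ) : ℂ) * Complex.exp ((k : ℂ) * I * w))
      (((x k * ((k : ℝ) / N) ^ m : ℝ) : ℂ) * (Complex.exp ((k : ℂ) * I * w) * ((k : ℂ) * I * 1))) w :=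
    fun k _ => (((hasDerivAt_id w).const_mul ((k : ℂ) * I)).cexp).const_mul _
  have h2 := (HasDerivAt.fun_sum h).div_const (Real.sqrt N : ℂ)
  refine h2.congr_deriv ?_
  unfold Fm
  rw [← mul_div_assoc, Finset.mul_sum]
  congr 1
  refine Finset.sum_congr rfl fun k _ => ?_
  push_cast
  rw [pow_succ]
  generalize ((k : ℂ) / (N : ℂ)) ^ m = t
  field_simp

lemma conj_Fm (x : ℕ → ℝ) (N m : ℕ) (θ : ℝ) :
    (starRingEnd ℂ) (Fm x N m θ) = Fm x N m (-(θ : ℂ)) := by
  unfold Fm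
  rw [map_div₀, map_sum, Complex.conj_ofReal]
  congr 1
  refine Finset.sum_congr rfl fun k _ => ?_
  rw [map_mul, Complex.conj_ofReal, ← Complex.exp_conj, map_mul, map_mul, Complex.conj_natCast,
    Complex.conj_I, Complex.conj_ofReal]
  ring_nf

lemma exists_angle {z : ℂ} (hz : ‖z‖ = 1) : ∃ θ : ℝ, Complex.exp (I * θ) = z := by
  refine ⟨Complex.arg z, ?_⟩
  have h := Complex.norm_mul_exp_arg_mul_I z
  rw [hz] at h
  rw [mul_comm]
  simpa using h

lemma exp_mul_nat (k : ℕ) (w : ℂ) : Complex.exp ((k : ℂ) * I * w) = Complex.exp (I * w) ^ k := by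
  rw [← Complex.exp_nat_mul]
  ring_nf

lemma disc_bound {g : ℂ → ℂ} (hg : Differentiable ℂ g) {B : ℝ}
    (hB : ∀ θ : ℝ, ‖g (Complex.exp (I * θ))‖ ≤ B) {z : ℂ} (hz : ‖z‖ ≤ 1) : ‖g z‖ ≤ B := by
  refine Complex.norm_le_of_forall_mem_frontier_norm_le (U := ball (0 : ℂ) 1) isBounded_ball
    hg.diffContOnCl (fun u hu => ?_) ?_
  · rw [frontier_ball _ one_ne_zero, mem_sphere_zero_iff_norm] at hu
    obtain ⟨θ, rfl⟩ := exists_angle hu
    exact hB θ
  · rw [closure_ball _ one_ne_zero, mem_closedBall_zero_iff]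
    exact hz

lemma norm_exp_I_mul (w : ℂ) : ‖Complex.exp (I * w)‖ = Real.exp (-w.im) := by
  rw [Complex.norm_exp]
  simp

namespace Good

variable (h : Good x N C)
include h

lemma small : Real.exp (-C) / 6 ≤ 1 / 6 := by
  have : Real.exp (-C) ≤ 1 := Real.exp_le_one_iff.2 (by linarith [h.2.1])
  linarith

lemma sqrtN_pos : 0 < Real.sqrt N := Real.sqrt_pos.2 (by exact_mod_cast h.1)

lemma real_le (θ : ℝ) : ‖Fm x N 0 (θ : ℂ)‖ ≤ 2 := by
  have := abs_le.1 (h.2.2 θ)
  linarith [h.small, this.2]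

lemma real_ge (θ : ℝ) : 1 / 2 ≤ ‖Fm x N 0 (θ : ℂ)‖ := by
  have := abs_le.1 (h.2.2 θ)
  linarith [h.small, this.1]

lemma real_sq (θ : ℝ) :
    ‖Fm x N 0 (θ : ℂ) * Fm x N 0 (-(θ : ℂ)) - 1‖ ≤ Real.exp (-C) / 2 := by
  rw [← conj_Fm, Complex.mul_conj, Complex.normSq_eq_norm_sq]
  have h1 := h.2.2 θ
  have h2 := h.real_le θ
  set t := ‖Fm x N 0 (θ : ℂ)‖
  have ht : 0 ≤ t := norm_nonneg _
  rw [show ((t ^ 2 : ℝ) : ℂ) - 1 = ((t ^ 2 - 1 : ℝ) : ℂ) by push_cast; ring]
  rw [Complex.norm_real, Real.norm_eq_abs, show t ^ 2 - 1 = (t - 1) * (t + 1) by ring, abs_mul,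
    abs_of_nonneg (show 0 ≤ t + 1 by linarith)]
  nlinarith [mul_le_mul h1 (show t + 1 ≤ 3 by linarith) (by linarith) (by positivity)]

lemma upper (w : ℂ) : ‖Fm x N 0 w‖ ≤ 2 * Real.exp ((N : ℝ) * |w.im|) := by
  have hone : 1 ≤ Real.exp ((N : ℝ) * |w.im|) := Real.one_le_exp (by positivity)
  rcases le_total 0 w.im with hw | hw
  · set g : ℂ → ℂ := fun z => (∑ k ∈ Finset.range N, (x k : ℂ) * z ^ k) / (Real.sqrt N : ℂ)
    have hg : ∀ u : ℂ, g (Complex.exp (I * u)) = Fm x N 0 u := fun u => by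
      simp [g, Fm, exp_mul_nat]
    have := disc_bound (g := g) (by fun_prop) (B := 2)
      (fun θ => by rw [hg]; exact h.real_le θ) (z := Complex.exp (I * w))
      (by rw [norm_exp_I_mul]; exact Real.exp_le_one_iff.2 (by linarith))
    rw [hg] at this
    linarith
  · set g : ℂ → ℂ := fun z => (∑ k ∈ Finset.range N, (x k : ℂ) * z ^ (N - 1 - k)) / (Real.sqrt N : ℂ)
    have hg : ∀ u : ℂ, Fm x N 0 u = Complex.exp (I * u) ^ (N - 1) * g (Complex.exp (-(I * u))) := by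
      intro u
      simp only [g, Fm, pow_zero, mul_one, ← mul_div_assoc, Finset.mul_sum]
      congr 1
      refine Finset.sum_congr rfl fun k hk => ?_
      have hk' : k ≤ N - 1 := by have := Finset.mem_range.1 hk; omega
      rw [exp_mul_nat, Complex.exp_neg, inv_pow, ← pow_sub_mul_pow (Complex.exp (I * u)) hk']
      field_simp [Complex.exp_ne_zero]
    have hb := disc_bound (g := g) (by fun_prop) (B := 2) (fun θ => ?_)
      (z := Complex.exp (-(I * w))) (by
        rw [← mul_neg, norm_exp_I_mul]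
        exact Real.exp_le_one_iff.2 (by simpa using hw))
    · rw [hg, norm_mul, norm_pow, norm_exp_I_mul, ← Real.exp_nat_mul, mul_comm (2 : ℝ)]
      refine mul_le_mul (Real.exp_le_exp.2 ?_) hb (norm_nonneg _) (Real.exp_pos _).le
      rw [abs_of_nonpos hw]
      exact mul_le_mul_of_nonneg_right (by exact_mod_cast Nat.sub_le N 1) (by linarith)
    · have h1 := hg ((-θ : ℝ) : ℂ)
      have h2 : -(I * ((-θ : ℝ) : ℂ)) = I * (θ : ℂ) := by push_cast; ring
      rw [h2] at h1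
      have h3 := congrArg norm h1
      rw [norm_mul, norm_pow, norm_exp_I_mul, Complex.ofReal_im, neg_zero, Real.exp_zero, one_pow,
        one_mul] at h3
      rw [← h3]
      exact h.real_le _

lemma G_bound (w : ℂ) : ‖Fm x N 0 w * Fm x N 0 (-w) - 1‖
    ≤ Real.exp (-C) / 2 * Real.exp ((N : ℝ) * |w.im|) := by
  have key : ∀ u : ℂ, 0 ≤ u.im → ‖Fm x N 0 u * Fm x N 0 (-u) - 1‖
      ≤ Real.exp (-C) / 2 * Real.exp ((N : ℝ) * |u.im|) := by
    intro u hu
    set g : ℂ → ℂ := fun z => ((∑ k ∈ Finset.range N, (x k : ℂ) * z ^ k) / (Real.sqrt N : ℂ))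
      * ((∑ k ∈ Finset.range N, (x k : ℂ) * z ^ (N - k)) / (Real.sqrt N : ℂ)) - z ^ N
    have hg : ∀ v : ℂ, g (Complex.exp (I * v))
        = Complex.exp (I * v) ^ N * (Fm x N 0 v * Fm x N 0 (-v) - 1) := by
      intro v
      have hrev : (∑ k ∈ Finset.range N, (x k : ℂ) * Complex.exp (I * v) ^ (N - k)) / (Real.sqrt N : ℂ)
          = Complex.exp (I * v) ^ N * Fm x N 0 (-v) := by
        simp only [Fm, pow_zero, mul_one, ← mul_div_assoc, Finset.mul_sum]
        congr 1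
        refine Finset.sum_congr rfl fun k hk => ?_
        rw [exp_mul_nat, mul_neg, Complex.exp_neg, inv_pow,
          ← pow_sub_mul_pow (Complex.exp (I * v)) (Finset.mem_range.1 hk).le]
        field_simp [Complex.exp_ne_zero]
      simp only [g]
      rw [hrev]
      simp only [Fm, pow_zero, mul_one, exp_mul_nat]
      ring
    have hb := disc_bound (g := g) (by fun_prop) (B := Real.exp (-C) / 2)
      (fun θ => by
        rw [hg, norm_mul, norm_pow, norm_exp_I_mul]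
        simpa using h.real_sq θ)
      (z := Complex.exp (I * u)) (by rw [norm_exp_I_mul]; exact Real.exp_le_one_iff.2 (by linarith))
    rw [hg, norm_mul, norm_pow, norm_exp_I_mul, ← Real.exp_nat_mul] at hb
    rw [abs_of_nonneg hu]
    have he : Real.exp ((N : ℝ) * u.im) * Real.exp ((N : ℝ) * (-u.im)) = 1 := by
      rw [← Real.exp_add]; simp
    calc ‖Fm x N 0 u * Fm x N 0 (-u) - 1‖
        = Real.exp ((N : ℝ) * u.im) * (Real.exp ((N : ℝ) * (-u.im))
            * ‖Fm x N 0 u * Fm x N 0 (-u) - 1‖) := by rw [← mul_assoc, he, one_mul]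
      _ ≤ Real.exp ((N : ℝ) * u.im) * (Real.exp (-C) / 2) :=
          mul_le_mul_of_nonneg_left hb (Real.exp_pos _).le
      _ = _ := by ring
  rcases le_total 0 w.im with hw | hw
  · exact key w hw
  · have := key (-w) (by simpa using hw)
    rwa [neg_neg, mul_comm (Fm x N 0 (-w)), Complex.neg_im, abs_neg] at this

lemma strip (w : ℂ) (hw : (N : ℝ) * |w.im| ≤ C) :
    ‖Fm x N 0 w‖ ≤ 2 * Real.exp C ∧ 1 / (4 * Real.exp C) ≤ ‖Fm x N 0 w‖
      ∧ ‖Fm x N 0 w * Fm x N 0 (-w) - 1‖ ≤ 1 / 2 := by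
  have hle : Real.exp ((N : ℝ) * |w.im|) ≤ Real.exp C := Real.exp_le_exp.2 hw
  have h1 : ‖Fm x N 0 w * Fm x N 0 (-w) - 1‖ ≤ 1 / 2 := by
    refine (h.G_bound w).trans ?_
    refine (mul_le_mul_of_nonneg_left hle (by positivity)).trans ?_
    rw [div_mul_eq_mul_div, ← Real.exp_add]
    simp
  have h2 : ‖Fm x N 0 (-w)‖ ≤ 2 * Real.exp C := by
    refine (h.upper (-w)).trans ?_
    rw [Complex.neg_im, abs_neg]
    linarith
  refine ⟨(h.upper w).trans (by linarith), ?_, h1⟩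
  have h3 := norm_sub_norm_le (1 : ℂ) (1 - Fm x N 0 w * Fm x N 0 (-w))
  rw [sub_sub_cancel, norm_one, norm_sub_rev, norm_mul] at h3
  rw [div_le_iff₀ (by positivity)]
  nlinarith [mul_le_mul_of_nonneg_left h2 (norm_nonneg (Fm x N 0 w)), h1, h3]

lemma Fm0_ne (w : ℂ) (hw : (N : ℝ) * |w.im| ≤ C) : Fm x N 0 w ≠ 0 := by
  intro h0
  have h1 := (h.strip w hw).2.1
  rw [h0, norm_zero] at h1
  linarith [show (0 : ℝ) < 1 / (4 * Real.exp C) by positivity]

lemma R_pos : 0 < C / (N : ℝ) :=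
  div_pos (by linarith [h.2.1]) (by exact_mod_cast h.1)

lemma im_le {θ : ℝ} {w : ℂ} (hw : ‖w - θ‖ ≤ C / N) : (N : ℝ) * |w.im| ≤ C := by
  have h1 : |(w - θ).im| ≤ C / N := (Complex.abs_im_le_norm _).trans hw
  rw [le_div_iff₀ (by exact_mod_cast h.1)] at h1
  simpa [mul_comm] using h1

lemma qf_differentiableAt {θ : ℝ} {w : ℂ} (hw : ‖w - θ‖ ≤ C / N) :
    DifferentiableAt ℂ (qf x N) w :=
  ((differentiable_Fm x N 1) w).div ((differentiable_Fm x N 0) w) (h.Fm0_ne w (h.im_le hw))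

lemma qf_bound {θ : ℝ} {w : ℂ} (hw : ‖w - θ‖ ≤ C / N / 4) : ‖qf x N w‖ ≤ 48 := by
  have hR := h.R_pos
  set R := C / (N : ℝ) with hRdef
  have hN : (N : ℂ) ≠ 0 := by exact_mod_cast h.1.ne'
  have hne : ∀ u ∈ ball (θ : ℂ) R, Fm x N 0 u ≠ 0 := fun u hu =>
    h.Fm0_ne u (h.im_le (θ := θ) (by rw [mem_ball, dist_eq_norm] at hu; exact hu.le))
  have hd : DifferentiableOn ℂ (fun u => I * N * qf x N u) (ball (θ : ℂ) R) := fun u hu => by
    refine ((h.qf_differentiableAt (θ := θ) ?_).const_mul (I * (N : ℂ))).differentiableWithinAt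
    rw [mem_ball, dist_eq_norm] at hu
    exact hu.le
  obtain ⟨L, hL⟩ := hd.isExactOn_ball
  have hL' : ∀ u ∈ ball (θ : ℂ) R, HasDerivAt L (I * N * qf x N u) u := hL
  have hconst : ∀ u ∈ ball (θ : ℂ) R,
      Fm x N 0 u * Complex.exp (-L u) = Fm x N 0 θ * Complex.exp (-L θ) := by
    intro u hu
    have hder : ∀ v ∈ ball (θ : ℂ) R,
        HasDerivWithinAt (fun v => Fm x N 0 v * Complex.exp (-L v)) 0 (ball (θ : ℂ) R) v := by
      intro v hv
      have := ((hasDerivAt_Fm x h.1 0 v).mul ((hL' v hv).neg.cexp)).hasDerivWithinAt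
        (s := ball (θ : ℂ) R)
      refine this.congr_deriv ?_
      unfold qf
      field_simp [hne v hv]
      ring
    have := (convex_ball (θ : ℂ) R).norm_image_sub_le_of_norm_hasDerivWithin_le
      hder (C := 0) (fun v _ => by simp) (mem_ball_self hR) hu
    simpa [sub_eq_zero] using this
  have hre : ∀ u ∈ ball (θ : ℂ) R, (L u - L θ).re ≤ 2 * C + 16 := by
    intro u hu
    have h1 := congrArg norm (hconst u hu)
    rw [norm_mul, norm_mul, Complex.norm_exp, Complex.norm_exp, Complex.neg_re, Complex.neg_re] at h1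
    have h2 : ‖Fm x N 0 u‖ = ‖Fm x N 0 θ‖ * Real.exp ((L u - L θ).re) := by
      rw [Complex.sub_re, Real.exp_sub]
      rw [Real.exp_neg, Real.exp_neg] at h1
      field_simp at h1 ⊢
      linarith
    have h3 := (h.strip u (h.im_le (θ := θ)
      (by rw [mem_ball, dist_eq_norm] at hu; exact hu.le))).1
    rw [h2] at h3
    have h4 : Real.exp ((L u - L θ).re) ≤ 4 * Real.exp C := by
      nlinarith [h.real_ge θ, Real.exp_pos ((L u - L θ).re)]
    have h5 : 4 * Real.exp C ≤ Real.exp (2 * C + 16) := by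
      rw [Real.exp_add]
      have : Real.exp C ≤ Real.exp (2 * C) := Real.exp_le_exp.2 (by linarith [h.2.1])
      nlinarith [Real.add_one_le_exp (16 : ℝ), Real.exp_pos (2 * C)]
    exact Real.exp_le_exp.1 (h4.trans h5)
  set f : ℂ → ℂ := fun z => L (θ + z) - L θ with hf
  have hmem : ∀ z ∈ ball (0 : ℂ) R, (θ : ℂ) + z ∈ ball (θ : ℂ) R := fun z hz => by
    simpa [mem_ball, dist_eq_norm] using hz
  have hfd : DifferentiableOn ℂ f (ball (0 : ℂ) R) := fun z hz =>
    ((((hL' _ (hmem z hz)).differentiableAt).comp z (by fun_prop)).sub_const _).differentiableWithinAt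
  have hBC : ∀ u : ℂ, ‖u - θ‖ ≤ R / 2 → ‖L u - L θ‖ ≤ 2 * (2 * C + 16) := by
    intro u hu
    have hz : u - θ ∈ ball (0 : ℂ) R := by rw [mem_ball_zero_iff]; linarith
    have hb := Complex.borelCaratheodory_zero (M := 2 * C + 16) (by linarith [h.2.1]) hfd
      (fun z hz => hre _ (hmem z hz)) hR hz (by simp [hf])
    simp only [hf, add_sub_cancel] at hb
    refine hb.trans ?_
    rw [div_le_iff₀ (by linarith)]
    nlinarith [norm_nonneg (u - θ), h.2.1]
  have hball : closedBall w (R / 4) ⊆ ball (θ : ℂ) R := by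
    intro u hu
    rw [mem_closedBall, dist_eq_norm] at hu
    rw [mem_ball, dist_eq_norm]
    calc ‖u - θ‖ ≤ ‖u - w‖ + ‖w - θ‖ := norm_sub_le_norm_sub_add_norm_sub _ _ _
      _ < R := by linarith
  have hder := Complex.norm_deriv_le_of_forall_mem_sphere_norm_le (f := fun u => L u - L θ)
    (c := w) (R := R / 4) (C := 2 * (2 * C + 16)) (by positivity) ?_ ?_
  · rw [((hL' w (hball (mem_closedBall_self (by positivity)))).sub_const _).deriv] at hder
    rw [norm_mul, norm_mul, Complex.norm_I, one_mul, Complex.norm_natCast] at hder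
    have hNpos : (0 : ℝ) < N := by exact_mod_cast h.1
    rw [hRdef, le_div_iff₀ (by positivity)] at hder
    have : ‖qf x N w‖ * C ≤ 48 * C := by
      have e : (N : ℝ) * ‖qf x N w‖ * (C / N / 4) = ‖qf x N w‖ * C / 4 := by field_simp
      rw [e] at hder
      nlinarith [h.2.1]
    exact le_of_mul_le_mul_right this (by linarith [h.2.1])
  · refine DifferentiableOn.diffContOnCl ?_
    intro u hu
    rw [closure_ball _ (by positivity)] at hu
    exact ((hL' u (hball hu)).sub_const _).differentiableAt.differentiableWithinAt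
  · intro u hu
    refine hBC u ?_
    rw [mem_sphere, dist_eq_norm] at hu
    calc ‖u - θ‖ ≤ ‖u - w‖ + ‖w - θ‖ := norm_sub_le_norm_sub_add_norm_sub _ _ _
      _ ≤ R / 2 := by linarith

lemma qf_deriv_bound {θ : ℝ} {w : ℂ} (hw : ‖w - θ‖ ≤ C / N / 8) :
    ‖deriv (qf x N) w‖ ≤ 384 * N / C := by
  have hR := h.R_pos
  have hb : ∀ u ∈ closedBall w (C / N / 8), ‖u - θ‖ ≤ C / N / 4 := fun u hu => by
    rw [mem_closedBall, dist_eq_norm] at hu
    calc ‖u - θ‖ ≤ ‖u - w‖ + ‖w - θ‖ := norm_sub_le_norm_sub_add_norm_sub _ _ _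
      _ ≤ C / N / 4 := by linarith
  refine (Complex.norm_deriv_le_of_forall_mem_sphere_norm_le (C := 48) (R := C / N / 8)
    (by positivity) ?_ (fun u hu => h.qf_bound (hb u (sphere_subset_closedBall hu)))).trans_eq ?_
  · refine DifferentiableOn.diffContOnCl fun u hu => ?_
    rw [closure_ball _ (by positivity)] at hu
    exact (h.qf_differentiableAt (θ := θ) ((hb u hu).trans (by linarith))).differentiableWithinAt
  · field_simp
    ring

lemma qf_lip (s t : ℝ) : ‖qf x N (s : ℂ) - qf x N (t : ℂ)‖ ≤ 384 * N / C * |s - t| := by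
  have hR := h.R_pos
  have hd : ∀ u : ℝ, HasDerivWithinAt (fun u : ℝ => qf x N (u : ℂ))
      (deriv (qf x N) (u : ℂ)) Set.univ u := fun u =>
    ((h.qf_differentiableAt (θ := u) (by simpa using hR.le)).hasDerivAt.comp_ofReal).hasDerivWithinAt
  have := convex_univ.norm_image_sub_le_of_norm_hasDerivWithin_le (fun u _ => hd u)
    (C := 384 * N / C) (fun u _ => h.qf_deriv_bound (θ := u) (w := (u : ℂ)) (by simp; linarith))
    (Set.mem_univ t) (Set.mem_univ s)
  simpa [Real.norm_eq_abs] using this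

lemma qf_im (θ : ℝ) : |(qf x N (θ : ℂ)).im| ≤ 2 / C := by
  have hR := h.R_pos
  set F := Fm x N 0 with hF
  set F1 := Fm x N 1 with hF1
  have hG : HasDerivAt (fun w => F w * F (-w) - 1)
      (I * N * F1 θ * F (-θ) + F θ * (I * N * F1 (-θ) * (-1))) (θ : ℂ) :=
    ((hasDerivAt_Fm x h.1 0 θ).mul
      ((hasDerivAt_Fm x h.1 0 (-θ)).comp (θ : ℂ) (hasDerivAt_neg (θ : ℂ)))).sub_const 1
  have hb := Complex.norm_deriv_le_of_forall_mem_sphere_norm_le
    (f := fun w => F w * F (-w) - 1) (c := (θ : ℂ)) (R := C / N) (C := 1 / 2) hR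
    (by
      refine Differentiable.diffContOnCl ?_
      exact (((differentiable_Fm x N 0)).mul
        ((differentiable_Fm x N 0).comp differentiable_neg)).sub_const 1)
    (fun u hu => (h.strip u (h.im_le (θ := θ)
      (by rw [mem_sphere, dist_eq_norm] at hu; exact hu.le))).2.2)
  rw [hG.deriv] at hb
  have hne : F θ ≠ 0 := h.Fm0_ne θ (by simpa using (show (0 : ℝ) ≤ C by linarith [h.2.1]))
  have hcq : F1 θ = qf x N θ * F θ := by rw [qf, ← hF, ← hF1, div_mul_cancel₀ _ hne]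
  have e : I * N * F1 θ * F (-θ) + F θ * (I * N * F1 (-θ) * (-1))
      = I * N * ((F θ * (starRingEnd ℂ) (F θ)) * (qf x N θ - (starRingEnd ℂ) (qf x N θ))) := by
    rw [hF, hF1, ← conj_Fm, ← conj_Fm, ← hF, ← hF1, hcq, map_mul]
    ring
  rw [e, Complex.mul_conj, Complex.normSq_eq_norm_sq, Complex.sub_conj, norm_mul, norm_mul,
    norm_mul, norm_mul, Complex.norm_I, Complex.norm_natCast, Complex.norm_real,
    Complex.norm_real, Real.norm_eq_abs, Real.norm_eq_abs, abs_mul,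
    abs_of_nonneg (sq_nonneg ‖F (θ : ℂ)‖), abs_two] at hb
  have hN : (0 : ℝ) < N := by exact_mod_cast h.1
  have hC : (0 : ℝ) < C := by linarith [h.2.1]
  rw [div_div_eq_mul_div, le_div_iff₀ hC] at hb
  rw [le_div_iff₀ hC]
  have hge : (1 / 4 : ℝ) ≤ ‖F (θ : ℂ)‖ ^ 2 := by nlinarith [h.real_ge θ]
  have h4 : (N : ℝ) * (1 / 4) * |(qf x N (θ : ℂ)).im| * 2 * C ≤ 1 / 2 * N := by
    refine le_trans ?_ hb
    nlinarith [mul_le_mul_of_nonneg_left hge
      (mul_nonneg (mul_nonneg hN.le (abs_nonneg (qf x N (θ : ℂ)).im)) hC.le)]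
  nlinarith

end Good

lemma moment_local (m : ℕ) : ∃ K : ℝ, 0 ≤ K ∧ ∀ (x : ℕ → ℝ) (N : ℕ) (C : ℝ), Good x N C →
    ∀ (θ : ℝ) (w : ℂ), ‖w - θ‖ ≤ C / N / 2 ^ (m + 3) →
      ‖Fm x N m w / Fm x N 0 w - qf x N w ^ m‖ ≤ K / C := by
  induction m with
  | zero =>
    refine ⟨0, le_rfl, fun x N C h θ w hw => ?_⟩
    have hR := h.R_pos
    rw [div_self (h.Fm0_ne w (h.im_le (θ := θ) (hw.trans (div_le_self hR.le (by norm_num)))))]
    simp
  | succ m ih =>
    obtain ⟨K, hK0, hK⟩ := ih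
    refine ⟨48 * K + 4 * 2 ^ m * K + 384 * m * 48 ^ m, by positivity, fun x N C h θ w hw => ?_⟩
    have hR := h.R_pos
    have hC : (0 : ℝ) < C := by linarith [h.2.1]
    have hN : (0 : ℝ) < N := by exact_mod_cast h.1
    have hNc : (N : ℂ) ≠ 0 := by exact_mod_cast h.1.ne'
    set r : ℝ := C / N / 2 ^ (m + 1 + 3) with hr
    have hr2 : C / N / 2 ^ (m + 3) = 2 * r := by rw [hr]; ring
    have hr8 : 2 * r ≤ C / N / 8 := by
      rw [← hr2]
      refine div_le_div_of_nonneg_left hR.le (by norm_num) ?_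
      calc (8 : ℝ) = 2 ^ 3 := by norm_num
        _ ≤ _ := pow_le_pow_right₀ (by norm_num) (by omega)
    have hrpos : 0 < r := by positivity
    have hin : ∀ u ∈ closedBall w r, ‖u - θ‖ ≤ 2 * r := fun u hu => by
      rw [mem_closedBall, dist_eq_norm] at hu
      calc ‖u - θ‖ ≤ ‖u - w‖ + ‖w - θ‖ := norm_sub_le_norm_sub_add_norm_sub _ _ _
        _ ≤ 2 * r := by linarith
    have hne : ∀ u ∈ closedBall w r, Fm x N 0 u ≠ 0 := fun u hu =>
      h.Fm0_ne u (h.im_le (θ := θ) (by linarith [hin u hu]))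
    set E := fun u => Fm x N m u / Fm x N 0 u - qf x N u ^ m with hE
    have hEd : ∀ u ∈ closedBall w r, DifferentiableAt ℂ E u := fun u hu =>
      (((differentiable_Fm x N m) u).div ((differentiable_Fm x N 0) u) (hne u hu)).sub
        ((h.qf_differentiableAt (θ := θ) (by linarith [hin u hu])).pow m)
    have hw0 : w ∈ closedBall w r := mem_closedBall_self hrpos.le
    have hE' : ‖deriv E w‖ ≤ K / C / r := by
      refine Complex.norm_deriv_le_of_forall_mem_sphere_norm_le hrpos ?_ fun u hu => ?_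
      · refine DifferentiableOn.diffContOnCl fun u hu => ?_
        rw [closure_ball _ hrpos.ne'] at hu
        exact (hEd u hu).differentiableWithinAt
      · exact hK x N C h θ u (by rw [hr2]; exact hin u (sphere_subset_closedBall hu))
    have hq := (h.qf_differentiableAt (θ := θ) (w := w) (by linarith [hin w hw0])).hasDerivAt
    have hderE : HasDerivAt E ((I * N * Fm x N (m + 1) w * Fm x N 0 w
        - Fm x N m w * (I * N * Fm x N 1 w)) / Fm x N 0 w ^ 2
        - (m : ℂ) * qf x N w ^ (m - 1) * deriv (qf x N) w) w :=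
      ((hasDerivAt_Fm x h.1 m w).div (hasDerivAt_Fm x h.1 0 w) (hne w hw0)).sub (hq.pow m)
    have key : Fm x N (m + 1) w / Fm x N 0 w - qf x N w ^ (m + 1)
        = qf x N w * E w + (deriv E w + (m : ℂ) * qf x N w ^ (m - 1) * deriv (qf x N) w) / (I * N) := by
      rw [hderE.deriv, sub_add_cancel, hE, pow_succ]
      simp only [qf]
      field_simp [hne w hw0, Complex.I_ne_zero]
      ring
    rw [key]
    have hq1 : ‖qf x N w‖ ≤ 48 := h.qf_bound (θ := θ) (by linarith [hin w hw0])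
    have hq2 : ‖deriv (qf x N) w‖ ≤ 384 * N / C := h.qf_deriv_bound (θ := θ) (by linarith [hin w hw0])
    have hEb : ‖E w‖ ≤ K / C := hK x N C h θ w (by rw [hr2]; linarith)
    have hqm : ‖qf x N w‖ ^ (m - 1) ≤ 48 ^ m :=
      (pow_le_pow_left₀ (norm_nonneg _) hq1 _).trans (pow_le_pow_right₀ (by norm_num) (by omega))
    have hKr : K / C / r ≤ 4 * 2 ^ m * K * N / C := by
      have e : K / C / r = 4 * 2 ^ m * K * N / C * (4 / C) := by
        rw [hr, pow_add, pow_succ]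
        field_simp
        ring
      rw [e]
      exact mul_le_of_le_one_right (by positivity) ((div_le_one hC).2 h.2.1)
    refine (norm_add_le _ _).trans ?_
    rw [norm_mul, norm_div, norm_mul I, Complex.norm_I, one_mul, Complex.norm_natCast]
    have hsecond : ‖deriv E w + (m : ℂ) * qf x N w ^ (m - 1) * deriv (qf x N) w‖ / N
        ≤ (4 * 2 ^ m * K + 384 * m * 48 ^ m) / C := by
      rw [div_le_iff₀ hN]
      refine (norm_add_le _ _).trans ?_
      rw [norm_mul, norm_mul, norm_pow, Complex.norm_natCast]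
      calc ‖deriv E w‖ + (m : ℝ) * ‖qf x N w‖ ^ (m - 1) * ‖deriv (qf x N) w‖
          ≤ 4 * 2 ^ m * K * N / C + (m : ℝ) * 48 ^ m * (384 * N / C) :=
            add_le_add (hE'.trans hKr)
              (mul_le_mul (mul_le_mul_of_nonneg_left hqm (Nat.cast_nonneg m)) hq2
                (norm_nonneg _) (by positivity))
        _ = _ := by ring
    calc ‖qf x N w‖ * ‖E w‖ + _ ≤ 48 * (K / C) + (4 * 2 ^ m * K + 384 * m * 48 ^ m) / C :=
          add_le_add (mul_le_mul hq1 hEb (norm_nonneg _) (by norm_num)) hsecond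
      _ = _ := by ring

lemma pow_sub_pow_norm {a b : ℂ} {M : ℝ} (hM : 1 ≤ M) (ha : ‖a‖ ≤ M) (hb : ‖b‖ ≤ M) (m : ℕ) :
    ‖a ^ m - b ^ m‖ ≤ m * M ^ m * ‖a - b‖ := by
  induction m with
  | zero => simp
  | succ m ih =>
    have e : a ^ (m + 1) - b ^ (m + 1) = a * (a ^ m - b ^ m) + b ^ m * (a - b) := by ring
    rw [e]
    refine (norm_add_le _ _).trans ?_
    rw [norm_mul, norm_mul, norm_pow]
    have h1 : ‖b‖ ^ m ≤ M ^ (m + 1) :=
      (pow_le_pow_left₀ (norm_nonneg _) hb m).trans (pow_le_pow_right₀ hM (by omega))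
    calc ‖a‖ * ‖a ^ m - b ^ m‖ + ‖b‖ ^ m * ‖a - b‖
        ≤ M * ((m : ℝ) * M ^ m * ‖a - b‖) + M ^ (m + 1) * ‖a - b‖ :=
          add_le_add (mul_le_mul ha ih (norm_nonneg _) (by linarith))
            (mul_le_mul_of_nonneg_right h1 (norm_nonneg _))
      _ = _ := by push_cast; ring

/-- The real number `Re q` at a real point. -/
noncomputable def af (x : ℕ → ℝ) (N : ℕ) (θ : ℝ) : ℝ := (qf x N (θ : ℂ)).re

lemma Good.af_bound (h : Good x N C) (θ : ℝ) : |af x N θ| ≤ 48 :=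
  (Complex.abs_re_le_norm _).trans (h.qf_bound (θ := θ) (by simp; exact (div_nonneg h.R_pos.le (by norm_num))))

/-- Weighted polynomial. -/
noncomputable def FQ (x : ℕ → ℝ) (N : ℕ) (Q : Polynomial ℝ) (θ : ℝ) : ℂ :=
  (∑ k ∈ Finset.range N, ((x k * Q.eval ((k : ℝ) / N) : ℝ) : ℂ)
      * Complex.exp ((k : ℂ) * I * (θ : ℂ))) / (Real.sqrt N : ℂ)

lemma weight_local (Q : Polynomial ℝ) : ∃ K : ℝ, 0 ≤ K ∧ ∀ (x : ℕ → ℝ) (N : ℕ) (C : ℝ),
    Good x N C → ∀ θ : ℝ, ‖FQ x N Q θ - ((Q.eval (af x N θ) : ℝ) : ℂ) * Fm x N 0 θ‖ ≤ K / C := by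
  choose K hK0 hK using moment_local
  refine ⟨∑ i ∈ Finset.range (Q.natDegree + 1), |Q.coeff i| * (2 * (K i + i * 48 ^ i * 2)),
    Finset.sum_nonneg fun i _ => by have := hK0 i; positivity, fun x N C h θ => ?_⟩
  have hC : (0 : ℝ) < C := by linarith [h.2.1]
  have hF : FQ x N Q θ = ∑ i ∈ Finset.range (Q.natDegree + 1), (Q.coeff i : ℂ) * Fm x N i θ := by
    simp only [FQ, Fm, Polynomial.eval_eq_sum_range, ← mul_div_assoc, Finset.mul_sum,
      ← Finset.sum_div]
    congr 1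
    rw [Finset.sum_comm]
    refine Finset.sum_congr rfl fun k _ => ?_
    push_cast
    rw [Finset.sum_mul]
    refine Finset.sum_congr rfl fun i _ => ?_
    ring
  rw [hF, Polynomial.eval_eq_sum_range]
  push_cast
  rw [Finset.sum_mul, ← Finset.sum_sub_distrib, Finset.sum_div]
  refine (norm_sum_le _ _).trans (Finset.sum_le_sum fun i _ => ?_)
  rw [mul_assoc, ← mul_sub, norm_mul, Complex.norm_real, Real.norm_eq_abs, mul_div_assoc]
  refine mul_le_mul_of_nonneg_left ?_ (abs_nonneg _)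
  have hne : Fm x N 0 θ ≠ 0 := h.Fm0_ne θ (by simpa using hC.le)
  have e : Fm x N i θ - (af x N θ : ℂ) ^ i * Fm x N 0 θ
      = ((Fm x N i θ / Fm x N 0 θ - qf x N θ ^ i)
          + (qf x N θ ^ i - (af x N θ : ℂ) ^ i)) * Fm x N 0 θ := by
    field_simp
    ring
  rw [e, norm_mul]
  have hq : ‖qf x N (θ : ℂ)‖ ≤ 48 :=
    h.qf_bound (θ := θ) (by simp; exact (div_nonneg h.R_pos.le (by norm_num)))
  have hd : ‖qf x N (θ : ℂ) - (af x N θ : ℂ)‖ ≤ 2 / C := by
    have : qf x N (θ : ℂ) - (af x N θ : ℂ) = ((qf x N (θ : ℂ)).im : ℂ) * I := by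
      apply Complex.ext <;> simp [af]
    rw [this, norm_mul, Complex.norm_I, mul_one, Complex.norm_real, Real.norm_eq_abs]
    exact h.qf_im θ
  have h1 := hK i x N C h θ (θ : ℂ) (by simp; exact div_nonneg h.R_pos.le (by positivity))
  have h2 : ‖qf x N (θ : ℂ) ^ i - (af x N θ : ℂ) ^ i‖ ≤ (i : ℝ) * 48 ^ i * (2 / C) :=
    (pow_sub_pow_norm (by norm_num) hq (by simpa using h.af_bound θ) i).trans
      (mul_le_mul_of_nonneg_left hd (by positivity))
  calc _ ≤ (K i / C + (i : ℝ) * 48 ^ i * (2 / C)) * 2 :=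
        mul_le_mul ((norm_add_le _ _).trans (add_le_add h1 h2)) (h.real_le θ) (norm_nonneg _)
          (by have := hK0 i; positivity)
    _ = _ := by ring

/-- From near flatness to `Good`. -/
lemma good_of_nearFlat {x : ℕ → ℝ} {N : ℕ} {C c : ℝ} (hN : 0 < N) (hC : 4 ≤ C)
    (hc : c ≤ Real.exp (-C) / 6) (h : NearFlat x N c) : Good x N C := by
  refine ⟨hN, hC, fun θ => ?_⟩
  have hs : 0 < Real.sqrt N := Real.sqrt_pos.2 (by exact_mod_cast hN)
  have e : ‖Fm x N 0 (θ : ℂ)‖ = ‖evalP x N θ‖ / Real.sqrt N := by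
    simp [Fm, evalP, abs_of_nonneg hs.le]
  rw [e, abs_le]
  obtain ⟨h1, h2⟩ := h θ
  constructor
  · have : (1 - c) ≤ ‖evalP x N θ‖ / Real.sqrt N := (le_div_iff₀ hs).2 h1
    linarith
  · have : ‖evalP x N θ‖ / Real.sqrt N ≤ 1 + c := (div_le_iff₀ hs).2 h2
    linarith

lemma af_eq_phaseSlope {x : ℕ → ℝ} {N : ℕ} (hN : 0 < N) (θ : ℝ) :
    af x N θ = phaseSlope x N θ := by
  have hs : (Real.sqrt N : ℂ) ≠ 0 := by
    exact_mod_cast (Real.sqrt_pos.2 (by exact_mod_cast hN : (0 : ℝ) < N)).ne'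
  have e : qf x N (θ : ℂ) = evalP (fun k => (k : ℝ) * x k) N θ / evalP x N θ / ((N : ℝ) : ℂ) := by
    unfold qf Fm evalP
    rw [div_div_div_cancel_right₀ hs]
    simp only [pow_zero, mul_one, pow_one, div_right_comm (b := (∑ k ∈ Finset.range N,
      (x k : ℂ) * Complex.exp ((k : ℂ) * I * (θ : ℂ))))]
    congr 1
    rw [Finset.sum_div]
    refine Finset.sum_congr rfl fun k _ => ?_
    push_cast
    ring
  rw [af, phaseSlope, e, Complex.div_ofReal_re]

end Vale.Agent.P110
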