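import Mathlib.Analysis.SpecialFunctions.Integrals.Basic
import Mathlib.Analysis.SpecialFunctions.Complex.Circle

/-! Parseval's identity for trigonometric sums. -/

namespace Vale.Agent.P110

open scoped BigOperators
open Complex MeasureTheory

lemma integral_char (n : ℤ) (s : ℝ) :
    ∫ θ in s..s + 2 * Real.pi, Complex.exp ((n : ℂ) * I * (θ : ℂ))
      = if n = 0 then (2 * Real.pi : ℂ) else 0 := by
  split_ifs with hn
  · subst hn
    simp
  · rw [integral_exp_mul_complex (mul_ne_zero (by exact_mod_cast hn) Complex.I_ne_zero)]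
    have e : (n : ℂ) * I * ((s + 2 * Real.pi : ℝ) : ℂ)
        = (n : ℂ) * I * (s : ℂ) + (n : ℂ) * (2 * Real.pi * I) := by
      push_cast; ring
    rw [e, Complex.exp_add, Complex.exp_int_mul_two_pi_mul_I]
    simp

lemma integral_norm_sq_trig (S : Finset ℤ) (c : ℤ → ℂ) (s : ℝ) :
    ∫ θ in s..s + 2 * Real.pi, ‖∑ n ∈ S, c n * Complex.exp ((n : ℂ) * I * (θ : ℂ))‖ ^ 2
      = 2 * Real.pi * ∑ n ∈ S, ‖c n‖ ^ 2 := by
  apply Complex.ofReal_injective
  rw [← intervalIntegral.integral_ofReal]
  push_cast
  have e : ∀ θ : ℝ, ((‖∑ n ∈ S, c n * Complex.exp ((n : ℂ) * I * (θ : ℂ))‖ : ℂ)) ^ 2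
      = ∑ m ∈ S, ∑ n ∈ S, c m * (starRingEnd ℂ) (c n)
          * Complex.exp (((m - n : ℤ) : ℂ) * I * (θ : ℂ)) := by
    intro θ
    rw [← Complex.mul_conj', map_sum, Finset.sum_mul_sum]
    refine Finset.sum_congr rfl fun m _ => Finset.sum_congr rfl fun n _ => ?_
    rw [map_mul, ← Complex.exp_conj, map_mul, map_mul, Complex.conj_I, Complex.conj_ofReal]
    have : (starRingEnd ℂ) (n : ℂ) = (n : ℂ) := by simp
    rw [this, mul_mul_mul_comm, ← Complex.exp_add]
    push_cast
    ring_nf
  simp only [e]
  rw [intervalIntegral.integral_finsetSum]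
  · rw [Finset.mul_sum]
    refine Finset.sum_congr rfl fun m hm => ?_
    rw [intervalIntegral.integral_finsetSum]
    · rw [Finset.sum_eq_single m]
      · rw [intervalIntegral.integral_const_mul, integral_char, if_pos (sub_self m),
          Complex.mul_conj']
        ring
      · intro n _ hn
        rw [intervalIntegral.integral_const_mul, integral_char, if_neg (sub_ne_zero.2 hn.symm),
          mul_zero]
      · exact fun h => absurd hm h
    · exact fun n _ => (by fun_prop : Continuous _).intervalIntegrable _ _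
  · exact fun m _ => (by fun_prop : Continuous _).intervalIntegrable _ _

end Vale.Agent.P110
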