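import Mathlib.Analysis.SpecialFunctions.Pow.Real
import Mathlib.Data.Int.Interval
import Mathlib.Algebra.BigOperators.Ring.Finset
import Mathlib.Analysis.Real.Pi.Bounds
import Vale.Agent.P110.Flat
import Vale.Agent.P110.Parseval

/-! Near-flat Littlewood polynomials have subexponential count. -/

namespace Vale.Agent.P110

open scoped BigOperators
open Complex Finset

lemma signSeq_sub_sq {N : ℕ} (b b' : Fin N → Bool) (k : Fin N) :
    (signSeq b k - signSeq b' k) ^ 2 = if b k = b' k then (0 : ℝ) else 4 := by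
  simp only [signSeq, k.isLt, dite_true, Fin.eta]
  cases b k <;> cases b' k <;> norm_num

lemma hamming_count {N : ℕ} (b : Fin N → Bool) {e : ℝ} (he0 : 0 < e) (he1 : e ≤ 1)
    (A : Finset (Fin N → Bool))
    (hA : ∀ b' ∈ A, (((univ.filter fun k => b k ≠ b' k).card : ℕ) : ℝ) ≤ e ^ 2 * N) :
    (A.card : ℝ) ≤ Real.exp (2 * e * N) := by
  set D : (Fin N → Bool) → Finset (Fin N) := fun b' => univ.filter fun k => b k ≠ b' k with hD
  have hinj : Set.InjOn D A := by
    intro b1 _ b2 _ h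
    funext k
    have := Finset.ext_iff.1 h k
    simp only [hD, mem_filter, mem_univ, true_and, ne_eq] at this
    cases hb : b k <;> cases h1 : b1 k <;> cases h2 : b2 k <;> simp_all
  have h1 : (A.card : ℝ) * e ^ (e ^ 2 * (N : ℝ)) ≤ (1 + e) ^ N := by
    calc (A.card : ℝ) * e ^ (e ^ 2 * (N : ℝ)) = ∑ _b' ∈ A, e ^ (e ^ 2 * (N : ℝ)) := by
          rw [sum_const, nsmul_eq_mul]
      _ ≤ ∑ b' ∈ A, e ^ (D b').card := by
          refine sum_le_sum fun b' hb' => ?_
          rw [← Real.rpow_natCast e (D b').card]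
          exact Real.rpow_le_rpow_of_exponent_ge he0 he1 (hA b' hb')
      _ = ∑ S ∈ A.image D, e ^ S.card := (sum_image (f := fun S => e ^ S.card) hinj).symm
      _ ≤ ∑ S ∈ (univ : Finset (Fin N)).powerset, e ^ S.card :=
          sum_le_sum_of_subset_of_nonneg (fun S _ => by simp) (fun S _ _ => by positivity)
      _ = (1 + e) ^ N := by
          have := (prod_one_add (univ : Finset (Fin N)) (f := fun _ => e)).symm
          simpa [prod_const] using this
  have h2 : (1 + e) ^ N ≤ Real.exp (e * N) := by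
    rw [mul_comm, Real.exp_nat_mul]
    exact pow_le_pow_left₀ (by linarith) (by linarith [Real.add_one_le_exp e]) N
  have h3 : Real.exp (-(e * N)) ≤ e ^ (e ^ 2 * (N : ℝ)) := by
    rw [Real.rpow_def_of_pos he0, Real.exp_le_exp]
    have := Real.one_sub_inv_le_log_of_pos he0
    have hm := mul_le_mul_of_nonneg_right this (show 0 ≤ e ^ 2 * (N : ℝ) by positivity)
    have he : (1 - e⁻¹) * (e ^ 2 * (N : ℝ)) = e ^ 2 * N - e * N := by field_simp
    nlinarith [mul_nonneg (sq_nonneg e) (Nat.cast_nonneg (α := ℝ) N)]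
  have h4 : (A.card : ℝ) * Real.exp (-(e * N)) ≤ Real.exp (e * N) :=
    ((mul_le_mul_of_nonneg_left h3 (Nat.cast_nonneg _)).trans h1).trans h2
  rw [Real.exp_neg, ← div_eq_mul_inv, div_le_iff₀ (Real.exp_pos _), ← Real.exp_add] at h4
  calc (A.card : ℝ) ≤ _ := h4
    _ = _ := by ring_nf

/-- Quantised local data of a polynomial. -/
noncomputable def code (x : ℕ → ℝ) (N M : ℕ) (j : ℕ) : ℤ × ℤ × ℤ :=
  (⌊af x N ((j : ℝ) * M / N) * (M : ℝ) ^ 4⌋,
   ⌊(Fm x N 0 (((j : ℝ) * M / N : ℝ) : ℂ)).re * (M : ℝ) ^ 4⌋,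
   ⌊(Fm x N 0 (((j : ℝ) * M / N : ℝ) : ℂ)).im * (M : ℝ) ^ 4⌋)

lemma floor_close {a b : ℝ} {P : ℝ} (hP : 0 < P) (h : ⌊a * P⌋ = ⌊b * P⌋) : |a - b| ≤ 1 / P := by
  have := Int.abs_sub_lt_one_of_floor_eq_floor h
  rw [← sub_mul, abs_mul, abs_of_pos hP] at this
  rw [le_div_iff₀ hP]
  exact this.le

lemma cell_close {x y : ℕ → ℝ} {N M : ℕ} (hM : 1 ≤ M) (hx : Good x N (4 * (M : ℝ) ^ 4))
    (hy : Good y N (4 * (M : ℝ) ^ 4)) (j : ℕ) (h : code x N M j = code y N M j) (θ : ℝ)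
    (h1 : (j : ℝ) * M / N ≤ θ) (h2 : θ ≤ (j : ℝ) * M / N + (M : ℝ) / N) :
    ‖Fm x N 0 (θ : ℂ) - Fm y N 0 (θ : ℂ)‖ ≤ 1000 / (M : ℝ) ^ 2 := by
  have hN : (0 : ℝ) < N := by exact_mod_cast hx.1
  have hM' : (1 : ℝ) ≤ M := by exact_mod_cast hM
  set P : ℝ := (M : ℝ) ^ 4 with hP
  have hPp : 0 < P := by positivity
  set θ0 : ℝ := (j : ℝ) * M / N
  simp only [code, Prod.mk.injEq] at h
  obtain ⟨ha, hr, hi⟩ := h
  set α : ℝ := af x N θ0
  -- derivative of the demodulated polynomial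
  have key : ∀ z : ℕ → ℝ, Good z N (4 * P) → |af z N θ0 - α| ≤ 1 / P →
      ‖Fm z N 0 (θ : ℂ) * Complex.exp (-(I * N * α * ((θ : ℂ) - θ0))) - Fm z N 0 (θ0 : ℂ)‖
        ≤ 200 / (M : ℝ) ^ 2 := by
    intro z hz hza
    have hd : ∀ u ∈ Set.Icc θ0 θ, HasDerivWithinAt
        (fun u : ℝ => Fm z N 0 (u : ℂ) * Complex.exp (-(I * N * α * ((u : ℂ) - θ0))))
        (I * N * (qf z N (u : ℂ) - α) * Fm z N 0 (u : ℂ)
          * Complex.exp (-(I * N * α * ((u : ℂ) - θ0)))) (Set.Icc θ0 θ) u := by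
      intro u _
      have h1 := (hasDerivAt_Fm z hz.1 0 (u : ℂ)).mul
        (((((hasDerivAt_id (u : ℂ)).sub_const (θ0 : ℂ)).const_mul (I * N * (α : ℂ))).neg).cexp)
      have hne : Fm z N 0 (u : ℂ) ≠ 0 :=
        hz.Fm0_ne u (by simpa using (show (0 : ℝ) ≤ 4 * P by positivity))
      refine (h1.comp_ofReal.congr_deriv ?_).hasDerivWithinAt
      simp only [qf, id, Pi.neg_apply]
      field_simp
      ring
    have hb : ∀ u ∈ Set.Icc θ0 θ, ‖I * N * (qf z N (u : ℂ) - α) * Fm z N 0 (u : ℂ)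
          * Complex.exp (-(I * N * α * ((u : ℂ) - θ0)))‖ ≤ 2 * (N : ℝ) * (100 * M / P) := by
      intro u hu
      rw [norm_mul, norm_mul, norm_mul, norm_mul, Complex.norm_I, one_mul, Complex.norm_natCast,
        Complex.norm_exp]
      have : (-(I * N * α * ((u : ℂ) - θ0))).re = 0 := by simp
      rw [this, Real.exp_zero, mul_one]
      have hq : ‖qf z N (u : ℂ) - α‖ ≤ 100 * M / P := by
        have a1 := hz.qf_lip u θ0
        have a2 : |u - θ0| ≤ M / N := by
          rw [abs_of_nonneg (by linarith [hu.1])]; linarith [hu.2]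
        have a3 : ‖qf z N (θ0 : ℂ) - α‖ ≤ 2 / (4 * P) + 1 / P := by
          have e : qf z N (θ0 : ℂ) - α
              = ((qf z N (θ0 : ℂ)).im : ℂ) * I + ((af z N θ0 - α : ℝ) : ℂ) := by
            apply Complex.ext <;> simp [af]
          rw [e]
          refine (norm_add_le _ _).trans (add_le_add ?_ ?_)
          · simpa using hz.qf_im θ0
          · rw [Complex.norm_real, Real.norm_eq_abs]; exact hza
        have a4 : 384 * (N : ℝ) / (4 * P) * |u - θ0| ≤ 96 * M / P := by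
          refine (mul_le_mul_of_nonneg_left a2 (by positivity)).trans_eq ?_
          field_simp; ring
        calc ‖qf z N (u : ℂ) - α‖
            ≤ ‖qf z N (u : ℂ) - qf z N θ0‖ + ‖qf z N (θ0 : ℂ) - α‖ :=
              norm_sub_le_norm_sub_add_norm_sub _ _ _
          _ ≤ 96 * M / P + (2 / (4 * P) + 1 / P) := add_le_add (a1.trans a4) a3
          _ ≤ _ := by
              field_simp
              linarith
      calc (N : ℝ) * ‖qf z N (u : ℂ) - α‖ * ‖Fm z N 0 (u : ℂ)‖ ≤ N * (100 * M / P) * 2 :=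
            mul_le_mul (mul_le_mul_of_nonneg_left hq hN.le) (hz.real_le u) (norm_nonneg _)
              (by positivity)
        _ = _ := by ring
    have := (convex_Icc θ0 θ).norm_image_sub_le_of_norm_hasDerivWithin_le hd hb
      (Set.left_mem_Icc.2 h1) (Set.right_mem_Icc.2 h1)
    simp only [sub_self, mul_zero, neg_zero, Complex.exp_zero, mul_one] at this
    refine this.trans ?_
    rw [Real.norm_eq_abs, abs_of_nonneg (by linarith)]
    refine (mul_le_mul_of_nonneg_left (show θ - θ0 ≤ M / N by linarith) (by positivity)).trans_eq ?_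
    rw [hP]
    field_simp
    ring
  have k1 := key x hx (by simp [α]; positivity)
  have k2 := key y hy (by rw [abs_sub_comm]; exact floor_close hPp ha)
  have k3 : ‖Fm x N 0 (θ0 : ℂ) - Fm y N 0 (θ0 : ℂ)‖ ≤ 2 / P := by
    refine (Complex.norm_le_abs_re_add_abs_im _).trans ?_
    rw [Complex.sub_re, Complex.sub_im]
    calc _ ≤ 1 / P + 1 / P := add_le_add (floor_close hPp hr) (floor_close hPp hi)
      _ = _ := by ring
  set e := Complex.exp (-(I * N * α * ((θ : ℂ) - θ0)))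
  have he : ‖e‖ = 1 := by simp [e, Complex.norm_exp]
  have hP2 : 2 / P ≤ 2 / (M : ℝ) ^ 2 :=
    div_le_div_of_nonneg_left (by norm_num) (by positivity) (pow_le_pow_right₀ hM' (by norm_num))
  calc ‖Fm x N 0 (θ : ℂ) - Fm y N 0 (θ : ℂ)‖
      = ‖Fm x N 0 (θ : ℂ) * e - Fm y N 0 (θ : ℂ) * e‖ := by rw [← sub_mul, norm_mul, he, mul_one]
    _ ≤ ‖Fm x N 0 (θ : ℂ) * e - Fm x N 0 θ0‖ + ‖Fm x N 0 (θ0 : ℂ) - Fm y N 0 θ0‖
          + ‖Fm y N 0 (θ : ℂ) * e - Fm y N 0 θ0‖ := by
        rw [norm_sub_rev (Fm y N 0 (θ : ℂ) * e) (Fm y N 0 θ0)]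
        refine le_trans (norm_sub_le_norm_sub_add_norm_sub _ (Fm y N 0 θ0) _) ?_
        exact add_le_add (norm_sub_le_norm_sub_add_norm_sub _ _ _) le_rfl
    _ ≤ 200 / (M : ℝ) ^ 2 + 2 / (M : ℝ) ^ 2 + 200 / (M : ℝ) ^ 2 :=
        add_le_add (add_le_add k1 (k3.trans hP2)) k2
    _ ≤ _ := by
        rw [← add_div, ← add_div]
        exact div_le_div_of_nonneg_right (by norm_num) (by positivity)

lemma same_code_close {N M J : ℕ} (hM : 1 ≤ M) (b b' : Fin N → Bool)
    (hx : Good (signSeq b) N (4 * (M : ℝ) ^ 4)) (hy : Good (signSeq b') N (4 * (M : ℝ) ^ 4))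
    (hJ : 7 * (N : ℝ) / M < J)
    (h : ∀ j < J, code (signSeq b) N M j = code (signSeq b') N M j) :
    (((univ.filter fun k => b k ≠ b' k).card : ℕ) : ℝ) ≤ (500 / (M : ℝ) ^ 2) ^ 2 * N := by
  have hN : (0 : ℝ) < N := by exact_mod_cast hx.1
  have hM' : (0 : ℝ) < M := by exact_mod_cast hM
  set d : ℤ → ℂ := fun n => (((signSeq b n.toNat - signSeq b' n.toNat) / Real.sqrt N : ℝ) : ℂ)
  have hsum : ∀ θ : ℝ, ∑ n ∈ (range N).image (fun k : ℕ => (k : ℤ)),
      d n * Complex.exp ((n : ℂ) * I * θ)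
      = Fm (signSeq b) N 0 θ - Fm (signSeq b') N 0 θ := by
    intro θ
    rw [sum_image (f := fun n : ℤ => d n * Complex.exp ((n : ℂ) * I * θ))
      (g := fun k : ℕ => (k : ℤ)) (fun a _ c _ hac => Nat.cast_injective hac), Fm, Fm, ← sub_div, ← sum_sub_distrib, Finset.sum_div]
    refine sum_congr rfl fun k _ => ?_
    simp only [d, Int.toNat_natCast, pow_zero, mul_one]
    push_cast
    ring
  have hI := integral_norm_sq_trig ((range N).image (fun k : ℕ => (k : ℤ))) d 0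
  simp only [hsum, zero_add] at hI
  have hle : ∫ θ in (0 : ℝ)..2 * Real.pi, ‖Fm (signSeq b) N 0 θ - Fm (signSeq b') N 0 θ‖ ^ 2
      ≤ 2 * Real.pi * (1000 / (M : ℝ) ^ 2) ^ 2 := by
    have hcont : Continuous fun θ : ℝ =>
        ‖Fm (signSeq b) N 0 θ - Fm (signSeq b') N 0 θ‖ ^ 2 :=
      ((((differentiable_Fm _ N 0).continuous.comp Complex.continuous_ofReal).sub
        ((differentiable_Fm _ N 0).continuous.comp Complex.continuous_ofReal)).norm).pow 2
    calc _ ≤ ∫ _θ in (0 : ℝ)..2 * Real.pi, (1000 / (M : ℝ) ^ 2) ^ 2 := by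
          refine intervalIntegral.integral_mono_on (by positivity) (hcont.intervalIntegrable _ _)
            intervalIntegrable_const fun θ hθ => pow_le_pow_left₀ (norm_nonneg _) ?_ 2
          set j := ⌊θ * N / M⌋₊ with hj
          have h0 : 0 ≤ θ * N / M := by have := hθ.1; positivity
          have hj1 := Nat.floor_le h0
          have hj2 := Nat.lt_floor_add_one (θ * N / M)
          rw [← hj] at hj1 hj2
          have hjJ : j < J := by
            have : (j : ℝ) < J := by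
              refine hj1.trans_lt (lt_of_le_of_lt ?_ hJ)
              refine div_le_div_of_nonneg_right (mul_le_mul_of_nonneg_right ?_ hN.le) hM'.le
              linarith [hθ.2, Real.pi_lt_d2]
            exact_mod_cast this
          refine cell_close hM hx hy j (h j hjJ) θ ?_ ?_
          · rw [div_le_iff₀ hN]
            rw [le_div_iff₀ hM'] at hj1
            linarith
          · rw [← add_div, le_div_iff₀ hN]
            rw [div_lt_iff₀ hM'] at hj2
            linarith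
      _ = _ := by simp
  rw [hI] at hle
  have h2 := le_of_mul_le_mul_left hle (by positivity)
  rw [sum_image (f := fun n : ℤ => ‖d n‖ ^ 2) (g := fun k : ℕ => (k : ℤ))
    (fun a _ c _ hac => Nat.cast_injective hac), ← Fin.sum_univ_eq_sum_range
    (fun k => ‖d (k : ℤ)‖ ^ 2)] at h2
  have e : ∀ k : Fin N, ‖d ((k : ℕ) : ℤ)‖ ^ 2 = (if b k ≠ b' k then (4 : ℝ) else 0) / N := by
    intro k
    simp only [d, Int.toNat_natCast, Complex.norm_real, Real.norm_eq_abs, sq_abs, div_pow,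
      signSeq_sub_sq, Real.sq_sqrt hN.le]
    split_ifs <;> simp_all
  simp only [e, ← Finset.sum_div, ← Finset.sum_filter, sum_const, nsmul_eq_mul] at h2
  rw [div_le_iff₀ hN] at h2
  nlinarith [h2, show (1000 / (M : ℝ) ^ 2) ^ 2 = 4 * (500 / (M : ℝ) ^ 2) ^ 2 by ring]

lemma code_mem {x : ℕ → ℝ} {N M : ℕ} (hM : 1 ≤ M) (hx : Good x N (4 * (M : ℝ) ^ 4)) (j : ℕ) :
    code x N M j ∈ (Icc (-(49 * (M : ℤ) ^ 4)) (49 * (M : ℤ) ^ 4)) ×ˢ
      ((Icc (-(49 * (M : ℤ) ^ 4)) (49 * (M : ℤ) ^ 4)) ×ˢ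
        (Icc (-(49 * (M : ℤ) ^ 4)) (49 * (M : ℤ) ^ 4))) := by
  have hM' : (1 : ℝ) ≤ (M : ℝ) ^ 4 := one_le_pow₀ (by exact_mod_cast hM)
  have key : ∀ a : ℝ, |a| ≤ 48 →
      ⌊a * (M : ℝ) ^ 4⌋ ∈ Icc (-(49 * (M : ℤ) ^ 4)) (49 * (M : ℤ) ^ 4) := by
    intro a ha
    obtain ⟨a1, a2⟩ := abs_le.1 ha
    rw [mem_Icc]
    refine ⟨Int.le_floor.2 (by push_cast; nlinarith), Int.floor_le_iff.2 (by push_cast; nlinarith)⟩
  simp only [code, mem_product]
  exact ⟨key _ (hx.af_bound _),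
    key _ ((Complex.abs_re_le_norm _).trans ((hx.real_le _).trans (by norm_num))),
    key _ ((Complex.abs_im_le_norm _).trans ((hx.real_le _).trans (by norm_num)))⟩

theorem count_bound {M : ℕ} (hM : 32 ≤ M) {N : ℕ} (hN : M ≤ N) :
    (Set.ncard {b : Fin N → Bool | NearFlat (signSeq b) N (Real.exp (-(4 * (M : ℝ) ^ 4)) / 6)} : ℝ)
      ≤ Real.exp (8000 / Real.sqrt M * N) := by
  classical
  have hM' : (32 : ℝ) ≤ M := by exact_mod_cast hM
  have hN' : (M : ℝ) ≤ N := by exact_mod_cast hN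
  set J : ℕ := ⌊7 * (N : ℝ) / M⌋₊ + 1 with hJ
  have hJ' : 7 * (N : ℝ) / M < J := by rw [hJ]; push_cast; exact Nat.lt_floor_add_one _
  have hJ2 : (J : ℝ) ≤ 8 * N / M := by
    have h1 := Nat.floor_le (show (0 : ℝ) ≤ 7 * (N : ℝ) / M by positivity)
    have h2 : 1 ≤ (N : ℝ) / M := by rw [le_div_iff₀ (by linarith)]; linarith
    rw [hJ]
    push_cast
    calc _ ≤ 7 * (N : ℝ) / M + N / M := add_le_add h1 h2
      _ = _ := by ring
  set A := (univ : Finset (Fin N → Bool)).filter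
    (fun b => NearFlat (signSeq b) N (Real.exp (-(4 * (M : ℝ) ^ 4)) / 6)) with hA
  have hgood : ∀ b ∈ A, Good (signSeq b) N (4 * (M : ℝ) ^ 4) := fun b hb =>
    good_of_nearFlat (by omega)
      (by nlinarith [one_le_pow₀ (n := 4) (show (1 : ℝ) ≤ M by linarith)]) le_rfl
      (by simpa [hA] using hb)
  set box := (Icc (-(49 * (M : ℤ) ^ 4)) (49 * (M : ℤ) ^ 4)) ×ˢ
      ((Icc (-(49 * (M : ℤ) ^ 4)) (49 * (M : ℤ) ^ 4)) ×ˢ
        (Icc (-(49 * (M : ℤ) ^ 4)) (49 * (M : ℤ) ^ 4)))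
  set T := Fintype.piFinset (fun _ : Fin J => box)
  set f : (Fin N → Bool) → (Fin J → ℤ × ℤ × ℤ) := fun b j => code (signSeq b) N M j
  have hmaps : ∀ b ∈ A, f b ∈ T := fun b hb =>
    Fintype.mem_piFinset.2 fun j => code_mem (by omega) (hgood b hb) j
  have he1 : 500 / (M : ℝ) ^ 2 ≤ 1 := by
    rw [div_le_one (by positivity)]; nlinarith
  have hfib : ∀ t ∈ T, ((A.filter fun b => f b = t).card : ℝ)
      ≤ Real.exp (2 * (500 / (M : ℝ) ^ 2) * N) := by
    intro t _
    rcases (A.filter fun b => f b = t).eq_empty_or_nonempty with h | ⟨b, hb⟩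
    · rw [h]; simp [Real.exp_nonneg]
    · refine hamming_count b (by positivity) he1 _ fun b' hb' => ?_
      simp only [mem_filter] at hb hb'
      refine same_code_close (J := J) (by omega) b b' (hgood b hb.1) (hgood b' hb'.1) hJ' fun j hj => ?_
      exact congrFun (hb.2.trans hb'.2.symm) ⟨j, hj⟩
  have hcard : (A.card : ℝ) ≤ T.card * Real.exp (2 * (500 / (M : ℝ) ^ 2) * N) := by
    rw [card_eq_sum_card_fiberwise hmaps]
    push_cast
    refine (sum_le_sum hfib).trans_eq ?_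
    rw [sum_const, nsmul_eq_mul]
  have hbox : (box.card : ℝ) ≤ (100 * (M : ℝ) ^ 4) ^ 3 := by
    have e : ((Icc (-(49 * (M : ℤ) ^ 4)) (49 * (M : ℤ) ^ 4)).card : ℝ) ≤ 100 * (M : ℝ) ^ 4 := by
      rw [Int.card_Icc]
      have : ((49 * (M : ℤ) ^ 4 + 1 - -(49 * (M : ℤ) ^ 4)).toNat) = 98 * M ^ 4 + 1 := by
        have : 49 * (M : ℤ) ^ 4 + 1 - -(49 * (M : ℤ) ^ 4) = ((98 * M ^ 4 + 1 : ℕ) : ℤ) := by
          push_cast; ring
        rw [this, Int.toNat_natCast]
      rw [this]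
      push_cast
      nlinarith [one_le_pow₀ (n := 4) (show (1 : ℝ) ≤ M by linarith)]
    simp only [box, card_product]
    push_cast
    calc _ ≤ (100 * (M : ℝ) ^ 4) * ((100 * (M : ℝ) ^ 4) * (100 * (M : ℝ) ^ 4)) :=
          mul_le_mul e (mul_le_mul e e (by positivity) (by positivity)) (by positivity) (by positivity)
      _ = _ := by ring
  have hset : Set.ncard {b : Fin N → Bool |
      NearFlat (signSeq b) N (Real.exp (-(4 * (M : ℝ) ^ 4)) / 6)} = A.card := by
    rw [← Set.ncard_coe_finset]; congr 1; ext b; simp [hA]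
  rw [hset]
  refine hcard.trans ?_
  have hT : (T.card : ℝ) ≤ Real.exp (3 * J * Real.log (100 * (M : ℝ) ^ 4)) := by
    rw [Fintype.card_piFinset, prod_const, card_univ, Fintype.card_fin]
    push_cast
    refine (pow_le_pow_left₀ (Nat.cast_nonneg _) hbox J).trans_eq ?_
    rw [← pow_mul, ← Real.exp_log (show (0 : ℝ) < 100 * (M : ℝ) ^ 4 by positivity),
      ← Real.exp_nat_mul, Real.log_exp]
    push_cast
    ring_nf
  refine (mul_le_mul_of_nonneg_right hT (Real.exp_pos _).le).trans ?_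
  rw [← Real.exp_add, Real.exp_le_exp]
  set r := Real.sqrt M with hr
  have hr2 : r ^ 2 = M := Real.sq_sqrt (by positivity)
  have hr1 : 1 ≤ r := Real.one_le_sqrt.2 (by linarith)
  have hlog : Real.log (100 * (M : ℝ) ^ 4) ≤ 108 * r := by
    rw [Real.log_mul (by norm_num) (by positivity), Real.log_pow]
    have h1 := Real.log_le_sub_one_of_pos (show (0 : ℝ) < 100 by norm_num)
    have h2 : Real.log (M : ℝ) ≤ 2 * r := by
      have h3 := Real.log_le_sub_one_of_pos (show (0 : ℝ) < r by linarith)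
      rw [hr, Real.log_sqrt (by positivity), ← hr] at h3
      linarith
    push_cast
    nlinarith
  have hlog0 : 0 ≤ Real.log (100 * (M : ℝ) ^ 4) :=
    Real.log_nonneg (by nlinarith [one_le_pow₀ (n := 4) (show (1 : ℝ) ≤ M by linarith)])
  have h5 : 3 * (J : ℝ) * Real.log (100 * (M : ℝ) ^ 4) ≤ 3 * (8 * N / M) * (108 * r) :=
    mul_le_mul (by linarith) hlog hlog0 (by positivity)
  have h6 : 2 * (500 / (M : ℝ) ^ 2) * N ≤ 1000 / r * N := by
    rw [← mul_div_assoc]
    refine mul_le_mul_of_nonneg_right ?_ (Nat.cast_nonneg N)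
    norm_num
    refine div_le_div_of_nonneg_left (by norm_num) (by linarith) ?_
    rw [← hr2]; nlinarith [pow_le_pow_right₀ hr1 (show 1 ≤ 4 by norm_num)]
  have h7 : 3 * (8 * (N : ℝ) / M) * (108 * r) = 2592 / r * N := by
    rw [← hr2]; field_simp; ring
  calc _ ≤ 2592 / r * N + 1000 / r * N := by linarith
    _ = 3592 / r * N := by ring
    _ ≤ _ := mul_le_mul_of_nonneg_right
        (div_le_div_of_nonneg_right (by norm_num) (by linarith)) (Nat.cast_nonneg N)

theorem nearFlat_subexponential : ∀ δ : ℝ, 0 < δ → ∃ c : ℝ, 0 < c ∧ ∃ N₀ : ℕ, ∀ N : ℕ, N₀ ≤ N →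
    (Set.ncard {b : Fin N → Bool | NearFlat (signSeq b) N c} : ℝ) ≤ (2 : ℝ) ^ (δ * (N : ℝ)) := by
  intro δ hδ
  have hl : 0 < Real.log 2 := Real.log_pos (by norm_num)
  obtain ⟨M, hM⟩ := exists_nat_ge (max 32 ((8000 / (δ * Real.log 2)) ^ 2))
  have hM32 : 32 ≤ M := by exact_mod_cast (le_max_left _ _).trans hM
  refine ⟨Real.exp (-(4 * (M : ℝ) ^ 4)) / 6, by positivity, M, fun N hN => ?_⟩
  refine (count_bound hM32 hN).trans ?_
  rw [Real.rpow_def_of_pos (by norm_num), Real.exp_le_exp, ← mul_assoc]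
  refine mul_le_mul_of_nonneg_right ?_ (Nat.cast_nonneg N)
  have h2 : 8000 / (δ * Real.log 2) ≤ Real.sqrt M :=
    Real.le_sqrt_of_sq_le ((le_max_right _ _).trans hM)
  rw [div_le_iff₀ (by positivity)] at h2
  rw [div_le_iff₀ (Real.sqrt_pos.2 (by exact_mod_cast (by omega : 0 < M)))]
  linarith

end Vale.Agent.P110
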