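import Mathlib.Analysis.Complex.Norm
import Mathlib.Data.Fintype.BigOperators
import Mathlib.Algebra.BigOperators.Fin
import Mathlib.Data.Fintype.Pigeonhole
import Mathlib.Data.Nat.Factorial.Basic
import Mathlib.Order.Interval.Finset.Nat

/-! A sign sequence obeying a strict linear prediction on a stretch is periodic there. -/

namespace Vale.Agent.P110

open scoped BigOperators

lemma sign_determined {v : ℝ} {S : ℂ} (hv : v = 1 ∨ v = -1) (h : ‖(v : ℂ) + S‖ < 1) :
    v = if S.re < 0 then 1 else -1 := by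
  have h1 : |v + S.re| < 1 := by
    refine lt_of_le_of_lt ?_ h
    simpa using Complex.abs_re_le_norm ((v : ℂ) + S)
  obtain ⟨h2, h3⟩ := abs_lt.1 h1
  rcases hv with rfl | rfl <;> split_ifs with h4 <;> linarith

lemma iterate_period {α : Type*} [Fintype α] (f : α → α) (s : α) (i : ℕ) (hi : Fintype.card α ≤ i) :
    f^[i + (Fintype.card α).factorial] s = f^[i] s := by
  obtain ⟨a, b, hab, he⟩ := Fintype.exists_ne_map_eq_of_card_lt
    (fun j : Fin (Fintype.card α + 1) => f^[(j : ℕ)] s) (by simp)
  wlog hlt : (a : ℕ) < b generalizing a b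
  · exact this b a hab.symm he.symm (lt_of_le_of_ne (not_lt.1 hlt) (fun h => hab (Fin.ext h.symm)))
  have hshift : ∀ t j : ℕ, (a : ℕ) ≤ j → f^[j + t * ((b : ℕ) - a)] s = f^[j] s := by
    intro t
    induction t with
    | zero => simp
    | succ t ih =>
      intro j hj
      have e1 : j + (t + 1) * ((b : ℕ) - a) = (j - a + t * ((b : ℕ) - a)) + b := by
        rw [Nat.succ_mul]; omega
      rw [e1, Function.iterate_add_apply, ← he, ← Function.iterate_add_apply]
      have e2 : j - a + t * ((b : ℕ) - a) + a = j + t * ((b : ℕ) - a) := by omega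
      rw [e2]
      exact ih j hj
  have hdvd : ((b : ℕ) - a) ∣ (Fintype.card α).factorial :=
    Nat.dvd_factorial (by omega) (by have := b.2; omega)
  obtain ⟨t, ht⟩ := hdvd
  rw [ht, mul_comm]
  exact hshift t i (by have := a.2; omega)

/-- Past window of a sequence. -/
noncomputable def window (X : ℤ → ℝ) (d : ℕ) (k : ℤ) : Fin d → Bool := fun i => decide (X (k - ((i : ℕ) + 1)) = 1)

lemma periodic_of_predict (X : ℤ → ℝ) (d : ℕ) (a : ℕ → ℂ) (k : ℤ) (p : ℕ)
    (hp : p = (2 ^ d).factorial)
    (hsign : ∀ n, k - 2 ^ d - d ≤ n → n ≤ k + p + 1 → (X n = 1 ∨ X n = -1))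
    (hgood : ∀ n, k - 2 ^ d ≤ n → n ≤ k + p →
      ‖(X n : ℂ) + ∑ i ∈ Finset.range d, a i * (X (n - ((i : ℤ) + 1)) : ℂ)‖ < 1) :
    X (k + p) = X k := by
  let pred : (Fin d → Bool) → Bool := fun w =>
    decide ((∑ i : Fin d, a i * (if w i then (1 : ℂ) else -1)).re < 0)
  let f : (Fin d → Bool) → (Fin d → Bool) := fun w i =>
    if h : (i : ℕ) = 0 then pred w else w ⟨(i : ℕ) - 1, by omega⟩
  have hpredict : ∀ n, k - 2 ^ d ≤ n → n ≤ k + p → X n = if pred (window X d n) then 1 else -1 := by
    intro n h1 h2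
    have e : ∑ i ∈ Finset.range d, a i * (X (n - ((i : ℤ) + 1)) : ℂ)
        = ∑ i : Fin d, a i * (if window X d n i then (1 : ℂ) else -1) := by
      rw [← Fin.sum_univ_eq_sum_range (fun i => a i * (X (n - ((i : ℤ) + 1)) : ℂ))]
      refine Finset.sum_congr rfl fun i _ => ?_
      rcases hsign (n - ((i : ℕ) + 1)) (by have := i.2; omega) (by omega) with h | h <;>
        simp [window, h] <;> norm_num
    have hd := hgood n h1 h2
    rw [e] at hd
    have := sign_determined (hsign n (by omega) (by omega)) hd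
    simpa [pred] using this
  set k0 : ℤ := k - 2 ^ d with hk0
  have hiter : ∀ j : ℕ, j ≤ 2 ^ d + p → window X d (k0 + j) = f^[j] (window X d k0) := by
    intro j
    induction j with
    | zero => simp
    | succ j ih =>
      intro hj
      rw [Function.iterate_succ_apply', ← ih (by omega)]
      have hjz : (j : ℤ) < 2 ^ d + p := by
        have : ((j : ℕ) : ℤ) < ((2 ^ d + p : ℕ) : ℤ) := by omega
        push_cast at this
        exact this
      funext i
      by_cases hi : (i : ℕ) = 0
      · simp only [f, window, dif_pos hi, hi]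
        have e : k0 + ((j + 1 : ℕ) : ℤ) - (((0 : ℕ) : ℤ) + 1) = k0 + j := by push_cast; ring
        rw [e, hpredict (k0 + j) (by omega) (by omega)]
        cases pred (window X d (k0 + j)) <;> norm_num [window]
      · simp only [f, dif_neg hi, window]
        congr 3
        omega
  have hcard : Fintype.card (Fin d → Bool) = 2 ^ d := by simp
  have hper := iterate_period f (window X d k0) (2 ^ d) (le_of_eq hcard)
  rw [hcard, ← hp, ← hiter (2 ^ d + p) le_rfl, ← hiter (2 ^ d) (by omega)] at hper
  have e1 : k0 + ((2 ^ d + p : ℕ) : ℤ) = k + p := by rw [hk0]; push_cast; ring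
  have e2 : k0 + ((2 ^ d : ℕ) : ℤ) = k := by rw [hk0]; push_cast; ring
  rw [e1, e2] at hper
  have hd2 : (0 : ℤ) ≤ 2 ^ d := by positivity
  rw [hpredict (k + p) (by omega) le_rfl, hpredict k (by omega) (by omega), hper]

end Vale.Agent.P110
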