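import Mathlib.Algebra.MonoidAlgebra.Basic
import Mathlib.Algebra.Order.BigOperators.Ring.Finset
import Mathlib.Algebra.Order.Chebyshev
import Mathlib.Analysis.PSeries
import Mathlib.Analysis.SpecialFunctions.ExpDeriv
import Mathlib.Analysis.Calculus.Deriv.Add
import Vale.Agent.P110.Parseval

/-! Trigonometric polynomials as an algebra, with their action on sequences. -/

namespace Vale.Agent.P110

open scoped BigOperators
open Complex Finset AddMonoidAlgebra

abbrev TP := AddMonoidAlgebra ℂ ℤ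

noncomputable def charHom (θ : ℝ) : Multiplicative ℤ →* ℂ where
  toFun n := Complex.exp ((n.toAdd : ℂ) * I * (θ : ℂ))
  map_one' := by simp
  map_mul' a b := by
    rw [← Complex.exp_add, toAdd_mul]
    push_cast
    ring_nf

noncomputable def ev (θ : ℝ) : TP →ₐ[ℂ] ℂ := AddMonoidAlgebra.lift ℂ ℂ ℤ (charHom θ)

lemma ev_single (θ : ℝ) (n : ℤ) (a : ℂ) :
    ev θ (single n a) = a * Complex.exp ((n : ℂ) * I * (θ : ℂ)) := by
  rw [ev, AddMonoidAlgebra.lift_single]
  simp [charHom]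

lemma sum_single_coeff (c : TP) : ∑ n ∈ c.coeff.support, single n (c.coeff n) = c := by
  apply AddMonoidAlgebra.coeff_injective
  rw [AddMonoidAlgebra.coeff_sum]
  exact Finsupp.sum_single c.coeff

lemma ev_eq (c : TP) (θ : ℝ) :
    ev θ c = ∑ n ∈ c.coeff.support, c.coeff n * Complex.exp ((n : ℂ) * I * (θ : ℂ)) := by
  conv_lhs => rw [← sum_single_coeff c]
  simp [map_sum, ev_single]

lemma parseval (c : TP) (s : ℝ) :
    ∫ θ in s..s + 2 * Real.pi, ‖ev θ c‖ ^ 2
      = 2 * Real.pi * ∑ n ∈ c.coeff.support, ‖c.coeff n‖ ^ 2 := by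
  simp only [ev_eq]
  exact integral_norm_sq_trig _ _ s

lemma continuous_ev (c : TP) : Continuous fun θ : ℝ => ev θ c := by
  simp only [ev_eq]
  fun_prop

/-- Convolution action on a two-sided sequence. -/
noncomputable def act (c : TP) (y : ℤ → ℂ) (k : ℤ) : ℂ :=
  c.coeff.sum fun j a => a * y (k - j)

lemma act_single (j : ℤ) (a : ℂ) (y : ℤ → ℂ) (k : ℤ) : act (single j a) y k = a * y (k - j) := by
  simp [act, AddMonoidAlgebra.coeff_single]

lemma act_add (c d : TP) (y : ℤ → ℂ) (k : ℤ) : act (c + d) y k = act c y k + act d y k := by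
  simp only [act, AddMonoidAlgebra.coeff_add]
  exact Finsupp.sum_add_index' (fun j => by simp) (fun j a b => by ring)

lemma act_sum {ι : Type*} (s : Finset ι) (c : ι → TP) (y : ℤ → ℂ) (k : ℤ) :
    act (∑ i ∈ s, c i) y k = ∑ i ∈ s, act (c i) y k := by
  classical
  induction s using Finset.induction_on with
  | empty => simp [act]
  | insert a s ha ih => rw [sum_insert ha, sum_insert ha, act_add, ih]

/-- The `ℓ¹` norm of the coefficients. -/
noncomputable def nrm (c : TP) : ℝ := ∑ n ∈ c.coeff.support, ‖c.coeff n‖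

lemma act_norm_le (c : TP) (y : ℤ → ℂ) {B : ℝ} (hy : ∀ n, ‖y n‖ ≤ B) (k : ℤ) :
    ‖act c y k‖ ≤ nrm c * B := by
  refine (norm_sum_le _ _).trans ?_
  rw [nrm, sum_mul]
  refine sum_le_sum fun j _ => ?_
  rw [norm_mul]
  exact mul_le_mul_of_nonneg_left (hy _) (norm_nonneg _)

/-- The formal derivative. -/
noncomputable def tderiv (c : TP) : TP :=
  ∑ n ∈ c.coeff.support, single n (I * (n : ℂ) * c.coeff n)

lemma hasDerivAt_ev (c : TP) (θ : ℝ) : HasDerivAt (fun t : ℝ => ev t c) (ev θ (tderiv c)) θ := by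
  have e : (fun t : ℝ => ev t c)
      = fun t : ℝ => ∑ n ∈ c.coeff.support, c.coeff n * Complex.exp ((n : ℂ) * I * (t : ℂ)) :=
    funext (ev_eq c)
  rw [e, tderiv, map_sum]
  refine HasDerivAt.fun_sum fun n _ => ?_
  rw [ev_single]
  refine (((((hasDerivAt_id (θ : ℂ)).const_mul ((n : ℂ) * I)).cexp).const_mul
    (c.coeff n)).comp_ofReal).congr_deriv ?_
  simp only [id]
  ring

lemma tderiv_coeff (c : TP) (n : ℤ) : (tderiv c).coeff n = I * (n : ℂ) * c.coeff n := by
  classical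
  rw [tderiv, AddMonoidAlgebra.coeff_sum, Finsupp.finsetSum_apply]
  simp only [AddMonoidAlgebra.coeff_single, Finsupp.single_apply]
  rw [Finset.sum_ite_eq' c.coeff.support n (fun m => I * (m : ℂ) * c.coeff m)]
  split_ifs with h
  · rfl
  · rw [Finsupp.notMem_support_iff.1 h, mul_zero]

lemma summable_weight : Summable fun n : ℤ => 1 / (1 + (n : ℝ) ^ 2) := by
  refine Summable.of_nonneg_of_le (fun n => by positivity) (fun n => ?_)
    ((Real.summable_one_div_int_pow (p := 2)).2 one_lt_two |>.add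
      (summable_of_ne_finset_zero (f := fun n : ℤ => if n = 0 then (1 : ℝ) else 0) (s := {0})
        (by intro n hn; simp_all)))
  split_ifs with h
  · simp [h]
  · rw [add_zero]
    have : (0 : ℝ) < (n : ℝ) ^ 2 := by positivity
    exact one_div_le_one_div_of_le this (by linarith)

noncomputable def wK : ℝ := Real.sqrt (∑' n : ℤ, 1 / (1 + (n : ℝ) ^ 2))

/-- Uniform bounds on a trigonometric polynomial and its derivative control the `ℓ¹` norm. -/
lemma nrm_le (c : TP) {S : ℝ} (hS : 0 ≤ S) (h1 : ∀ θ, ‖ev θ c‖ ≤ S)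
    (h2 : ∀ θ, ‖ev θ (tderiv c)‖ ≤ S) : nrm c ≤ 2 * S * wK := by
  have key : ∀ d : TP, (∀ θ, ‖ev θ d‖ ≤ S) → ∑ n ∈ d.coeff.support, ‖d.coeff n‖ ^ 2 ≤ S ^ 2 := by
    intro d hd
    have hp := parseval d 0
    have hle : ∫ θ in (0 : ℝ)..0 + 2 * Real.pi, ‖ev θ d‖ ^ 2
        ≤ ∫ _θ in (0 : ℝ)..0 + 2 * Real.pi, S ^ 2 :=
      intervalIntegral.integral_mono_on (by simp [Real.pi_pos.le])
        (((continuous_ev d).norm.pow 2).intervalIntegrable _ _) intervalIntegrable_const
        fun θ _ => pow_le_pow_left₀ (norm_nonneg _) (hd θ) 2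
    rw [hp] at hle
    simp only [zero_add, intervalIntegral.integral_const, sub_zero, smul_eq_mul] at hle
    exact le_of_mul_le_mul_left hle (by positivity)
  have hd : ∑ n ∈ c.coeff.support, ((n : ℝ) * ‖c.coeff n‖) ^ 2 ≤ S ^ 2 := by
    refine le_trans ?_ (key _ h2)
    have hsub : (tderiv c).coeff.support ⊆ c.coeff.support := fun n hn => by
      rw [Finsupp.mem_support_iff, tderiv_coeff] at hn
      exact Finsupp.mem_support_iff.2 fun h => hn (by rw [h, mul_zero])
    rw [sum_subset hsub (fun n _ hn => by rw [Finsupp.notMem_support_iff.1 hn]; simp)]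
    refine le_of_eq (sum_congr rfl fun n _ => ?_)
    rw [tderiv_coeff, norm_mul, norm_mul, Complex.norm_I, one_mul, Complex.norm_intCast, mul_pow,
      mul_pow, sq_abs]
  have hcs := sum_sq_le_sum_mul_sum_of_sq_le_mul c.coeff.support
    (r := fun n => ‖c.coeff n‖) (f := fun n : ℤ => 1 / (1 + (n : ℝ) ^ 2))
    (g := fun n : ℤ => ‖c.coeff n‖ ^ 2 + ((n : ℝ) * ‖c.coeff n‖) ^ 2)
    (fun n _ => by positivity) (fun n _ => by positivity) (fun n _ => le_of_eq (by field_simp))
  have hw : ∑ n ∈ c.coeff.support, 1 / (1 + (n : ℝ) ^ 2) ≤ wK ^ 2 := by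
    rw [wK, Real.sq_sqrt (tsum_nonneg fun n => by positivity)]
    exact summable_weight.sum_le_tsum _ (fun n _ => by positivity)
  have hsum : ∑ n ∈ c.coeff.support, (‖c.coeff n‖ ^ 2 + ((n : ℝ) * ‖c.coeff n‖) ^ 2) ≤ 2 * S ^ 2 := by
    rw [sum_add_distrib]; linarith [key c h1, hd]
  have : nrm c ^ 2 ≤ (2 * S * wK) ^ 2 := by
    refine hcs.trans ((mul_le_mul hw hsum (by positivity) (sq_nonneg _)).trans ?_)
    nlinarith [mul_nonneg (sq_nonneg S) (sq_nonneg wK)]
  exact pow_le_pow_iff_left₀ (sum_nonneg fun n _ => norm_nonneg _)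
    (by have : 0 ≤ wK := Real.sqrt_nonneg _; positivity) two_ne_zero |>.1 this

/-- Multiplication becomes convolution. -/
lemma ev_mul_sum (c : TP) (y : ℤ → ℂ) (N : ℕ) (hy : ∀ n, n < 0 ∨ (N : ℤ) ≤ n → y n = 0) :
    ∃ U : Finset ℤ, (∀ k : ℕ, k < N → (k : ℤ) ∈ U) ∧ ∀ θ : ℝ,
      ev θ c * (∑ k ∈ range N, y k * Complex.exp ((k : ℂ) * I * (θ : ℂ)))
        = ∑ n ∈ U, act c y n * Complex.exp ((n : ℂ) * I * (θ : ℂ)) := by
  classical
  set V := insert (0 : ℤ) c.coeff.support with hV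
  set U := (V ×ˢ range N).image (fun p => p.1 + (p.2 : ℤ)) with hU
  refine ⟨U, fun k hk => mem_image.2 ⟨(0, k), by simp [hV, hk], by simp⟩, fun θ => ?_⟩
  rw [ev_eq, sum_mul]
  simp only [act, Finsupp.sum, sum_mul, mul_sum]
  conv_rhs => rw [sum_comm]
  refine sum_congr rfl fun j hj => ?_
  have hinj : Set.InjOn (fun k : ℕ => j + (k : ℤ)) (range N) := fun a _ b _ h => by simpa using h
  rw [← sum_subset (s₁ := (range N).image fun k : ℕ => j + (k : ℤ))]
  · rw [sum_image hinj]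
    refine sum_congr rfl fun k _ => ?_
    rw [add_sub_cancel_left, mul_mul_mul_comm, ← Complex.exp_add]
    push_cast
    ring_nf
  · intro n hn
    obtain ⟨k, hk, rfl⟩ := mem_image.1 hn
    exact mem_image.2 ⟨(j, k), by simp [hV, hj, mem_range.1 hk], rfl⟩
  · intro n _ hn
    have : y (n - j) = 0 := by
      refine hy _ ?_
      by_contra hc
      push Not at hc
      obtain ⟨h0, h1⟩ := hc
      refine hn (mem_image.2 ⟨(n - j).toNat, mem_range.2 ?_, ?_⟩) <;> omega
    simp [this]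

end Vale.Agent.P110
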