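import Mathlib.Analysis.SpecialFunctions.Trigonometric.Inverse
import Mathlib.Analysis.SpecialFunctions.Integrals.Basic
import Mathlib.Topology.ContinuousMap.Weierstrass
import Mathlib.Algebra.Polynomial.AlgebraMap
import Mathlib.Analysis.Calculus.Deriv.Polynomial
import Mathlib.Analysis.Real.Pi.Bounds
import Vale.Agent.P110.Trig

/-! A monic linear predictor for sequences whose spectrum avoids an arc. -/

namespace Vale.Agent.P110

open scoped BigOperators
open Complex Finset AddMonoidAlgebra Polynomial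

/-- Chebyshev polynomials of an arc. -/
noncomputable def cheb (b : ℝ) : ℕ → Polynomial ℂ
  | 0 => Polynomial.C 2
  | 1 => 1 + Polynomial.X
  | n + 2 => (1 + Polynomial.X) * cheb b (n + 1) - Polynomial.C (b : ℂ) * Polynomial.X * cheb b n

lemma cheb_zero (b : ℝ) : ∀ n, (cheb b (n + 1)).eval 0 = 1
  | 0 => by simp [cheb]
  | n + 1 => by
    rw [cheb]
    simp [cheb_zero b n]

lemma cheb_eval {r φ u : ℝ} (hu : Real.cos (u / 2) = r * Real.cos φ) :
    ∀ n : ℕ, (cheb (r ^ 2) n).eval (Complex.exp (I * (u : ℂ)))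
      = Complex.exp (I * (u : ℂ) / 2) ^ n * ((2 * r ^ n * Real.cos (n * φ) : ℝ) : ℂ) := by
  have hh : Complex.exp (I * (u : ℂ)) = Complex.exp (I * (u : ℂ) / 2) ^ 2 := by
    rw [← Complex.exp_nat_mul]; congr 1; push_cast; ring
  have h1 : 1 + Complex.exp (I * (u : ℂ))
      = Complex.exp (I * (u : ℂ) / 2) * ((2 * (r * Real.cos φ) : ℝ) : ℂ) := by
    rw [← hu]
    push_cast
    rw [Complex.cos, mul_div_cancel₀ _ (two_ne_zero' ℂ), mul_add, ← Complex.exp_add, ← Complex.exp_add]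
    have e1 : I * (u : ℂ) / 2 + (u : ℂ) / 2 * I = I * (u : ℂ) := by ring
    have e2 : I * (u : ℂ) / 2 + -((u : ℂ) / 2) * I = 0 := by ring
    rw [e1, e2, Complex.exp_zero, add_comm]
  intro n
  induction n using Nat.strong_induction_on with
  | _ n ih =>
    match n with
    | 0 => simp [cheb]
    | 1 => simp [cheb, h1]; ring
    | n + 2 =>
      rw [cheb]
      simp only [eval_sub, eval_mul, eval_add, eval_one, eval_X, eval_C]
      rw [ih (n + 1) (by omega), ih n (by omega), h1, hh]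
      have c1 : Real.cos ((n + 2 : ℕ) * φ)
          = 2 * Real.cos φ * Real.cos ((n + 1 : ℕ) * φ) - Real.cos (n * φ) := by
        have e1 : ((n + 2 : ℕ) : ℝ) * φ = ((n + 1 : ℕ) : ℝ) * φ + φ := by push_cast; ring
        have e2 : (n : ℝ) * φ = ((n + 1 : ℕ) : ℝ) * φ - φ := by push_cast; ring
        rw [e1, e2, Real.cos_add, Real.cos_sub]
        ring
      rw [c1]
      push_cast
      ring

lemma cheb_small {b u : ℝ} (hb : 0 < b) (hu : (1 + Real.cos u) / 2 ≤ b) (n : ℕ) :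
    ‖(cheb b n).eval (Complex.exp (I * (u : ℂ)))‖ ≤ 2 * Real.sqrt b ^ n := by
  have hr : 0 < Real.sqrt b := Real.sqrt_pos.2 hb
  have habs : |Real.cos (u / 2) / Real.sqrt b| ≤ 1 := by
    rw [abs_div, abs_of_pos hr, div_le_one hr]
    refine Real.le_sqrt_of_sq_le ?_
    rw [sq_abs, Real.cos_sq]
    ring_nf
    ring_nf at hu
    linarith
  obtain ⟨h1, h2⟩ := abs_le.1 habs
  have hc : Real.cos (u / 2) = Real.sqrt b * Real.cos (Real.arccos (Real.cos (u / 2) / Real.sqrt b)) := by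
    rw [Real.cos_arccos h1 h2]; field_simp
  have := cheb_eval hc n
  rw [Real.sq_sqrt hb.le] at this
  rw [this, norm_mul, norm_pow, Complex.norm_exp]
  have : (I * (u : ℂ) / 2).re = 0 := by simp
  rw [this, Real.exp_zero, one_pow, one_mul, Complex.norm_real, Real.norm_eq_abs, abs_mul, abs_mul,
    abs_two, abs_pow, abs_of_pos hr]
  exact mul_le_of_le_one_right (by positivity) (Real.abs_cos_le_one _)

lemma norm_eval_le (p : Polynomial ℂ) {z : ℂ} (hz : ‖z‖ = 1) :
    ‖p.eval z‖ ≤ ∑ i ∈ range (p.natDegree + 1), ‖p.coeff i‖ := by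
  rw [eval_eq_sum_range]
  refine (norm_sum_le _ _).trans (sum_le_sum fun i _ => ?_)
  rw [norm_mul, norm_pow, hz, one_pow, mul_one]

lemma exists_antiderivative (p : Polynomial ℝ) :
    ∃ q : Polynomial ℝ, Polynomial.derivative q = p ∧ q.eval 0 = 0 := by
  induction p using Polynomial.induction_on' with
  | add p q hp hq =>
    obtain ⟨P, hP, hP0⟩ := hp
    obtain ⟨Q, hQ, hQ0⟩ := hq
    exact ⟨P + Q, by rw [derivative_add, hP, hQ], by simp [hP0, hQ0]⟩
  | monomial n a =>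
    refine ⟨monomial (n + 1) (a / (n + 1)), ?_, by simp⟩
    rw [derivative_monomial]
    congr 1
    push_cast
    field_simp

lemma exists_step {b0 b1 : ℝ} (h0 : 0 ≤ b0) (h01 : b0 < b1) (h1 : b1 ≤ 1) :
    ∃ K : ℝ, 0 ≤ K ∧ ∀ η : ℝ, 0 < η → η ≤ 1 → ∃ p : Polynomial ℝ, ∀ y : ℝ, 0 ≤ y → y ≤ 1 →
      |p.eval y| ≤ 2 ∧ |(derivative p).eval y| ≤ K ∧ (y ≤ b0 → |p.eval y| ≤ η) ∧
      (b1 ≤ y → |1 - p.eval y| ≤ η ∧ |(derivative p).eval y| ≤ η) := by
  set r : ℝ → ℝ := fun y => max 0 ((y - b0) * (b1 - y)) with hr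
  have hrc : Continuous r := by fun_prop
  have hii : ∀ a c : ℝ, IntervalIntegrable r MeasureTheory.volume a c :=
    fun a c => hrc.intervalIntegrable a c
  set R : ℝ := ∫ y in b0..b1, r y with hRd
  have hR : 0 < R := intervalIntegral.intervalIntegral_pos_of_pos_on (hii _ _) (fun y hy =>
    lt_max_of_lt_right (mul_pos (by linarith [hy.1]) (by linarith [hy.2]))) h01
  have hz0 : ∀ y, y ≤ b0 → r y = 0 := fun y hy =>
    max_eq_left (mul_nonpos_of_nonpos_of_nonneg (by linarith) (by linarith))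
  have hz1 : ∀ y, b1 ≤ y → r y = 0 := fun y hy =>
    max_eq_left (mul_nonpos_of_nonneg_of_nonpos (by linarith) (by linarith))
  refine ⟨1 / R + 1, by positivity, fun η hη hη1 => ?_⟩
  obtain ⟨p', hp'⟩ := exists_polynomial_near_of_continuousOn 0 1 (fun y => r y / R)
    (hrc.div_const R).continuousOn η hη
  obtain ⟨p, hp, hp0⟩ := exists_antiderivative p'
  refine ⟨p, fun y hy0 hy1 => ?_⟩
  have hnear := (hp' y ⟨hy0, hy1⟩).le
  have hrle : r y ≤ 1 := by
    refine max_le zero_le_one ?_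
    rcases le_total y b0 with h | h
    · nlinarith
    · rcases le_total b1 y with h' | h'
      · nlinarith
      · exact mul_le_one₀ (by linarith) (by linarith) (by linarith)
  have hr0 : 0 ≤ r y := le_max_left _ _
  have hval : |p.eval y - (∫ t in (0 : ℝ)..y, r t) / R| ≤ η := by
    have e : p.eval y = ∫ t in (0 : ℝ)..y, p'.eval t := by
      rw [intervalIntegral.integral_eq_sub_of_hasDerivAt (f := fun t => p.eval t)
        (fun t _ => by simpa [hp] using p.hasDerivAt t) (p'.continuous.intervalIntegrable _ _)]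
      simp [hp0]
    rw [e, ← intervalIntegral.integral_div,
      ← intervalIntegral.integral_sub (p'.continuous.intervalIntegrable _ _)
        ((hrc.div_const R).intervalIntegrable _ _), ← Real.norm_eq_abs]
    refine (intervalIntegral.norm_integral_le_of_norm_le_const (C := η) fun t ht => ?_).trans ?_
    · rw [Set.uIoc_of_le hy0] at ht
      rw [Real.norm_eq_abs]
      exact (hp' t ⟨ht.1.le, ht.2.trans hy1⟩).le
    · rw [sub_zero, abs_of_nonneg hy0]
      exact mul_le_of_le_one_right hη.le hy1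
  have hint : 0 ≤ (∫ t in (0 : ℝ)..y, r t) / R :=
    div_nonneg (intervalIntegral.integral_nonneg hy0 fun t _ => le_max_left _ _) hR.le
  have hzero : ∀ z, 0 ≤ z → z ≤ b0 → ∫ t in (0 : ℝ)..z, r t = 0 := by
    intro z hz hzb
    rw [intervalIntegral.integral_congr (g := fun _ => (0 : ℝ)) (fun t ht => ?_)]
    · simp
    · rw [Set.uIcc_of_le hz] at ht
      exact hz0 t (ht.2.trans hzb)
  have hone : ∀ z, b1 ≤ z → ∫ t in (0 : ℝ)..z, r t = R := by
    intro z hy
    rw [← intervalIntegral.integral_add_adjacent_intervals (hii 0 b0) (hii b0 z), hzero b0 h0 le_rfl,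
      ← intervalIntegral.integral_add_adjacent_intervals (hii b0 b1) (hii b1 z),
      intervalIntegral.integral_congr (a := b1) (b := z) (g := fun _ => (0 : ℝ)) (fun t ht => ?_)]
    · simp [hRd]
    · rw [Set.uIcc_of_le hy] at ht
      exact hz1 t ht.1
  have hle : (∫ t in (0 : ℝ)..y, r t) / R ≤ 1 := by
    rw [div_le_one hR]
    rcases le_total b1 y with h | h
    · rw [hone y h]
    · rw [← hone 1 h1]
      refine intervalIntegral.integral_mono_interval le_rfl hy0 hy1 ?_ (hii _ _)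
      exact Filter.Eventually.of_forall fun t => le_max_left _ _
  obtain ⟨ha, hb⟩ := abs_le.1 hval
  refine ⟨abs_le.2 ⟨by linarith, by linarith⟩, ?_, fun hy => ?_, fun hy => ⟨?_, ?_⟩⟩
  · rw [hp, abs_le]
    obtain ⟨hc, hd⟩ := abs_le.1 hnear
    have : r y / R ≤ 1 / R := div_le_div_of_nonneg_right hrle hR.le
    have h0' : 0 ≤ r y / R := div_nonneg hr0 hR.le
    constructor <;> linarith
  · rw [hzero y hy0 hy, zero_div, sub_zero] at hval
    exact hval
  · rw [hone y hy, div_self hR.ne', abs_sub_comm] at hval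
    exact hval
  · rw [hz1 y hy, zero_div, sub_zero] at hnear
    rw [hp]
    exact hnear

/-- Powers of the predictor acting on a sequence. -/
noncomputable def shiftBy (θ₀ : ℝ) : TP := single 1 (Complex.exp (-((θ₀ : ℂ) * I)))

lemma shiftBy_pow (θ₀ : ℝ) (i : ℕ) :
    shiftBy θ₀ ^ i = single (i : ℤ) (Complex.exp (-((θ₀ : ℂ) * I)) ^ i) := by
  rw [shiftBy, AddMonoidAlgebra.single_pow]
  simp

lemma ev_shiftBy (θ₀ θ : ℝ) : ev θ (shiftBy θ₀) = Complex.exp (I * ((θ - θ₀ : ℝ) : ℂ)) := by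
  rw [shiftBy, ev_single, ← Complex.exp_add]
  push_cast
  ring_nf

noncomputable def bumpTP (θ₀ : ℝ) : TP :=
  single 0 (1 / 2) + single 1 (Complex.exp (-((θ₀ : ℂ) * I)) / 4)
    + single (-1) (Complex.exp ((θ₀ : ℂ) * I) / 4)

lemma ev_bumpTP (θ₀ θ : ℝ) : ev θ (bumpTP θ₀) = (((1 + Real.cos (θ - θ₀)) / 2 : ℝ) : ℂ) := by
  rw [bumpTP, map_add, map_add, ev_single, ev_single, ev_single]
  push_cast
  rw [Complex.cos, zero_mul, zero_mul, Complex.exp_zero, div_mul_eq_mul_div (Complex.exp _) 4,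
    div_mul_eq_mul_div (Complex.exp _) 4, ← Complex.exp_add, ← Complex.exp_add]
  ring_nf

lemma ev_aeval (θ : ℝ) (P : Polynomial ℂ) (b : TP) : ev θ (aeval b P) = P.eval (ev θ b) := by
  rw [← aeval_algHom_apply, coe_aeval_eq_eval]

lemma mul_deriv_bound {w dw ψ : ℂ} {dp X E K τ a : ℝ} {m : ℕ} (hK : 1 ≤ K) (hX : 0 ≤ X)
    (hE : 0 ≤ E) (hψ : ‖ψ‖ = a) (hdp : |dp| ≤ E) (hdw : ‖dw‖ ≤ K) (h1 : ‖w‖ ^ m ≤ X)
    (h2 : ‖w‖ ^ (m - 1) ≤ X * 2) (h4 : a ≤ E) (h7 : X * 2 * ((m : ℝ) + 1) * K * E ≤ τ) :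
    ‖w ^ m * ψ‖ ≤ τ ∧ ‖(m : ℂ) * w ^ (m - 1) * dw * ψ + w ^ m * -(dp : ℂ)‖ ≤ τ := by
  subst hψ
  have hbase : X * E ≤ τ := by
    refine le_trans ?_ h7
    have : (1 : ℝ) ≤ 2 * ((m : ℝ) + 1) * K := by nlinarith [Nat.cast_nonneg (α := ℝ) m]
    nlinarith [mul_le_mul_of_nonneg_left this (mul_nonneg hX hE)]
  constructor
  · rw [norm_mul, norm_pow]
    exact (mul_le_mul h1 h4 (norm_nonneg _) hX).trans hbase
  · refine (norm_add_le _ _).trans ?_
    rw [norm_mul, norm_mul, norm_mul, norm_mul, norm_pow, norm_pow, norm_neg, Complex.norm_natCast,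
      Complex.norm_real, Real.norm_eq_abs]
    calc (m : ℝ) * ‖w‖ ^ (m - 1) * ‖dw‖ * ‖ψ‖ + ‖w‖ ^ m * |dp|
        ≤ (m : ℝ) * (X * 2) * K * E + X * E :=
          add_le_add
            (mul_le_mul (mul_le_mul (mul_le_mul_of_nonneg_left h2 (Nat.cast_nonneg m)) hdw
              (norm_nonneg _) (by positivity)) h4 (norm_nonneg _) (by positivity))
            (mul_le_mul h1 hdp (abs_nonneg _) hX)
      _ ≤ X * 2 * ((m : ℝ) + 1) * K * E := by
          nlinarith [mul_nonneg hX hE, mul_le_mul_of_nonneg_left hK (mul_nonneg hX hE)]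
      _ ≤ τ := h7

/-- The predictor: monic, with `ℓ¹`-small product away from the arc. -/
lemma exists_predictor (θ₀ δ : ℝ) (hδ : 0 < δ) (hδ1 : δ ≤ 1) :
    ∃ (d : ℕ) (a : ℕ → ℂ) (T : TP) (G : ℝ), 0 ≤ G ∧
      (∀ y k, act T y k = y k + ∑ i ∈ range d, a i * y (k - ((i : ℤ) + 1))) ∧
      ∀ η : ℝ, 0 < η → η ≤ 1 → ∃ Φ : TP, nrm (T - T * Φ) ≤ 1 / 5 ∧
        (∀ θ, ‖ev θ (T * Φ)‖ ≤ G) ∧
        (∀ u : ℝ, |u| ≤ Real.pi → δ ≤ |u| → ‖ev (θ₀ + u) (T * Φ)‖ ≤ η) := by
  have hpi := Real.pi_gt_three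
  set b1 : ℝ := (1 + Real.cos (δ / 2)) / 2 with hb1
  set b0 : ℝ := (1 + Real.cos δ) / 2 with hb0
  have hc1 : Real.cos (δ / 2) < 1 := by
    have := Real.cos_lt_cos_of_nonneg_of_le_pi (x := 0) (y := δ / 2) le_rfl (by linarith) (by linarith)
    simpa using this
  have hb11 : b1 < 1 := by rw [hb1]; linarith
  have hb01 : b0 < b1 := by
    have := Real.cos_lt_cos_of_nonneg_of_le_pi (x := δ / 2) (y := δ) (by linarith) (by linarith) (by linarith)
    rw [hb0, hb1]; linarith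
  have hb00 : 0 ≤ b0 := by rw [hb0]; linarith [Real.neg_one_le_cos δ]
  have hb1p : 0 < b1 := hb00.trans_lt hb01
  obtain ⟨n, hn⟩ := exists_pow_lt_of_lt_one (show (0 : ℝ) < 1 / 4 by norm_num)
    (show Real.sqrt b1 < 1 by rw [Real.sqrt_lt' one_pos]; linarith)
  set W := cheb b1 (n + 1) with hW
  have hWsmall : ∀ u : ℝ, (1 + Real.cos u) / 2 ≤ b1 → ‖W.eval (Complex.exp (I * (u : ℂ)))‖ ≤ 1 / 2 := by
    intro u hu
    refine (cheb_small hb1p hu (n + 1)).trans ?_
    rw [pow_succ]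
    nlinarith [Real.sqrt_nonneg b1, Real.sqrt_le_one.2 hb11.le, pow_nonneg (Real.sqrt_nonneg b1) n]
  set K : ℝ := 1 + (∑ i ∈ range (W.natDegree + 1), ‖W.coeff i‖)
    + (∑ i ∈ range ((derivative W).natDegree + 1), ‖(derivative W).coeff i‖) with hK
  have hs1 : 0 ≤ ∑ i ∈ range (W.natDegree + 1), ‖W.coeff i‖ := sum_nonneg fun _ _ => norm_nonneg _
  have hs2 : 0 ≤ ∑ i ∈ range ((derivative W).natDegree + 1), ‖(derivative W).coeff i‖ :=
    sum_nonneg fun _ _ => norm_nonneg _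
  have hK1 : 1 ≤ K := by rw [hK]; linarith
  have hWK : ∀ z : ℂ, ‖z‖ = 1 → ‖W.eval z‖ ≤ K ∧ ‖(derivative W).eval z‖ ≤ K := fun z hz =>
    ⟨(norm_eval_le _ hz).trans (by rw [hK]; linarith),
      (norm_eval_le _ hz).trans (by rw [hK]; linarith)⟩
  obtain ⟨Ks, hKs0, hstep⟩ := exists_step hb00 hb01 hb11.le
  -- the power
  have hwK : 0 ≤ wK := Real.sqrt_nonneg _
  set τ : ℝ := 1 / (10 * (wK + 1)) with hτ
  have hτ0 : 0 < τ := by positivity
  have hlim : Filter.Tendsto (fun m : ℕ => (1 / 2 : ℝ) ^ m * 2 * ((m : ℝ) + 1) * K * (Ks + 3))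
      Filter.atTop (nhds 0) := by
    have h1 := tendsto_self_mul_const_pow_of_lt_one (show (0 : ℝ) ≤ 1 / 2 by norm_num) (by norm_num)
    have h2 := tendsto_pow_atTop_nhds_zero_of_lt_one (show (0 : ℝ) ≤ 1 / 2 by norm_num) (by norm_num)
    have := (h1.add h2).const_mul (2 * K * (Ks + 3))
    simp only [add_zero, mul_zero] at this
    refine this.congr fun m => ?_
    ring
  obtain ⟨m, hm⟩ := (hlim.eventually (eventually_le_nhds hτ0)).exists
  set P := W ^ m with hP
  have hP0 : P.coeff 0 = 1 := by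
    rw [coeff_zero_eq_eval_zero, hP, eval_pow, hW, cheb_zero, one_pow]
  set T : TP := aeval (shiftBy θ₀) P with hT
  refine ⟨P.natDegree, fun i => P.coeff (i + 1) * Complex.exp (-((θ₀ : ℂ) * I)) ^ (i + 1), T,
    2 * K ^ m, by positivity, fun y k => ?_, fun η hη hη1 => ?_⟩
  · rw [hT, aeval_eq_sum_range, act_sum, sum_range_succ']
    rw [add_comm]
    congr 1
    · rw [shiftBy_pow, AddMonoidAlgebra.smul_single, act_single, hP0]
      simp
    · refine sum_congr rfl fun i _ => ?_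
      rw [shiftBy_pow, AddMonoidAlgebra.smul_single, act_single, smul_eq_mul]
      push_cast
      rfl
  -- the smoothed indicator
  have hKm : (0 : ℝ) < K ^ m * 2 * ((m : ℝ) + 1) * K := by positivity
  obtain ⟨p, hp⟩ := hstep (min η (τ / (K ^ m * 2 * ((m : ℝ) + 1) * K)))
    (lt_min hη (by positivity)) ((min_le_left _ _).trans hη1)
  set pc : Polynomial ℂ := p.map Complex.ofRealHom with hpc
  set Φ : TP := aeval (bumpTP θ₀) pc with hΦ
  set B : ℝ → ℝ := fun θ => (1 + Real.cos (θ - θ₀)) / 2 with hB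
  have hB01 : ∀ θ, 0 ≤ B θ ∧ B θ ≤ 1 := fun θ => by
    have := Real.neg_one_le_cos (θ - θ₀); have := Real.cos_le_one (θ - θ₀)
    constructor <;> simp only [hB] <;> linarith
  have evΦ : ∀ θ, ev θ Φ = ((p.eval (B θ) : ℝ) : ℂ) := fun θ => by
    rw [hΦ, ev_aeval, ev_bumpTP, hpc, eval_map]
    exact eval₂_at_apply Complex.ofRealHom _
  set z : ℝ → ℂ := fun θ => Complex.exp (I * ((θ - θ₀ : ℝ) : ℂ)) with hz
  have hz1 : ∀ θ, ‖z θ‖ = 1 := fun θ => by simp [hz, Complex.norm_exp]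
  have evT : ∀ θ, ev θ T = W.eval (z θ) ^ m := fun θ => by
    rw [hT, ev_aeval, ev_shiftBy, hP, eval_pow]
  have hTK : ∀ θ, ‖ev θ T‖ ≤ K ^ m := fun θ => by
    rw [evT, norm_pow]; exact pow_le_pow_left₀ (norm_nonneg _) (hWK _ (hz1 θ)).1 m
  have hTsmall : ∀ θ, B θ ≤ b1 → ‖ev θ T‖ ≤ (1 / 2) ^ m := fun θ hθ => by
    rw [evT, norm_pow]; exact pow_le_pow_left₀ (norm_nonneg _) (hWsmall _ hθ) m
  refine ⟨Φ, ?_, fun θ => ?_, fun u hu1 hu2 => ?_⟩
  · -- ℓ¹ bound
    have hmain : ∀ θ, ‖ev θ (T - T * Φ)‖ ≤ τ ∧ ‖ev θ (tderiv (T - T * Φ))‖ ≤ τ := by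
      intro θ
      obtain ⟨hp1, hp2, -, hp4⟩ := hp (B θ) (hB01 θ).1 (hB01 θ).2
      have hfun : (fun t : ℝ => ev t (T - T * Φ))
          = fun t => W.eval (z t) ^ m * (1 - ((p.eval (B t) : ℝ) : ℂ)) := by
        funext t; rw [map_sub, map_mul, evT, evΦ]; ring
      have hdz : HasDerivAt z (I * z θ) θ := by
        have := ((((hasDerivAt_id (θ : ℂ)).sub_const (θ₀ : ℂ)).const_mul I).cexp).comp_ofReal
        refine (this.congr_of_eventuallyEq ?_).congr_deriv ?_
        · exact Filter.Eventually.of_forall fun t => by simp [hz]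
        · simp [hz]; ring
      have hdB : HasDerivAt B (-Real.sin (θ - θ₀) / 2) θ := by
        refine ((((Real.hasDerivAt_cos (θ - θ₀)).comp θ ((hasDerivAt_id θ).sub_const θ₀)).const_add 1).div_const 2).congr_deriv ?_
        simp
      have hdp := ((p.hasDerivAt (B θ)).comp θ hdB).ofReal_comp
      have hdW := ((W.hasDerivAt (z θ)).comp θ hdz).pow m
      have hd := hdW.mul (hdp.const_sub 1)
      have heq := (hasDerivAt_ev (T - T * Φ) θ).unique (by rw [hfun]; exact hd)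
      have hW' : ‖(derivative W).eval (z θ) * (I * z θ)‖ ≤ K := by
        simp [hz1 θ, (hWK _ (hz1 θ)).2]
      have hB' : |(derivative p).eval (B θ) * (-Real.sin (θ - θ₀) / 2)|
          ≤ |(derivative p).eval (B θ)| := by
        rw [abs_mul]
        refine mul_le_of_le_one_right (abs_nonneg _) ?_
        rw [abs_div, abs_neg, abs_two]
        linarith [Real.abs_sin_le_one (θ - θ₀)]
      have hψ : ‖(1 : ℂ) - ((p.eval (B θ) : ℝ) : ℂ)‖ = |1 - p.eval (B θ)| := by
        rw [← Complex.ofReal_one, ← Complex.ofReal_sub, Complex.norm_real, Real.norm_eq_abs]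
      have hmm : m - 1 ≤ m := Nat.sub_le m 1
      -- generic estimate
      have gen : ∀ X E : ℝ, ‖W.eval (z θ)‖ ^ m ≤ X → ‖W.eval (z θ)‖ ^ (m - 1) ≤ X * 2 → 0 ≤ X →
          |1 - p.eval (B θ)| ≤ E → |(derivative p).eval (B θ)| ≤ E → 0 ≤ E →
          X * 2 * ((m : ℝ) + 1) * K * E ≤ τ →
          ‖ev θ (T - T * Φ)‖ ≤ τ ∧ ‖ev θ (tderiv (T - T * Φ))‖ ≤ τ := by
        intro X E h1 h2 h3 h4 h5 h6 h7
        rw [congrFun hfun θ, heq]
        exact mul_deriv_bound hK1 h3 h6 hψ (hB'.trans h5) hW' h1 h2 h4 h7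
      rcases le_total (B θ) b1 with hcase | hcase
      · have hw := hWsmall _ hcase
        refine gen ((1 / 2) ^ m) (Ks + 3) (pow_le_pow_left₀ (norm_nonneg _) hw m) ?_ (by positivity)
          ?_ (hp2.trans (by linarith)) (by linarith) ?_
        · refine (pow_le_pow_left₀ (norm_nonneg _) hw _).trans ?_
          rcases Nat.eq_zero_or_pos m with h0 | h0
          · subst h0; norm_num
          · rw [show (1 / 2 : ℝ) ^ m = (1 / 2) ^ (m - 1) * (1 / 2) by
              rw [← pow_succ, Nat.sub_add_cancel h0]]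
            linarith
        · refine (abs_sub _ _).trans ?_
          rw [abs_one]; linarith
        · exact hm
      · obtain ⟨hq1, hq2⟩ := hp4 hcase
        have hw := (hWK _ (hz1 θ)).1
        refine gen (K ^ m) _ (pow_le_pow_left₀ (norm_nonneg _) hw m) ?_ (by positivity) hq1 hq2
          (lt_min hη (by positivity)).le ?_
        · calc ‖W.eval (z θ)‖ ^ (m - 1) ≤ K ^ (m - 1) := pow_le_pow_left₀ (norm_nonneg _) hw _
            _ ≤ K ^ m := pow_le_pow_right₀ hK1 hmm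
            _ ≤ K ^ m * 2 := by linarith [pow_nonneg (show (0 : ℝ) ≤ K by linarith) m]
        · exact (mul_le_mul_of_nonneg_left (min_le_right _ _) hKm.le).trans_eq (by field_simp)
    refine (nrm_le _ hτ0.le (fun θ => (hmain θ).1) (fun θ => (hmain θ).2)).trans ?_
    rw [hτ, div_eq_mul_inv]
    field_simp
    linarith
  · rw [map_mul, norm_mul, evΦ, Complex.norm_real, Real.norm_eq_abs, mul_comm (2 : ℝ)]
    exact mul_le_mul (hTK θ) (hp _ (hB01 θ).1 (hB01 θ).2).1 (abs_nonneg _) (by positivity)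
  · have hBu : B (θ₀ + u) ≤ b0 := by
      simp only [hB, hb0, add_sub_cancel_left]
      have : Real.cos u ≤ Real.cos δ := by
        rw [← Real.cos_abs u]
        exact Real.cos_le_cos_of_nonneg_of_le_pi hδ.le hu1 hu2
      linarith
    rw [map_mul, norm_mul, evΦ, Complex.norm_real, Real.norm_eq_abs]
    calc ‖ev (θ₀ + u) T‖ * |p.eval (B (θ₀ + u))| ≤ 1 * η :=
          mul_le_mul ((hTsmall _ (hBu.trans hb01.le)).trans (pow_le_one₀ (by norm_num) (by norm_num)))
            (((hp _ (hB01 _).1 (hB01 _).2).2.2.1 hBu).trans (min_le_left _ _))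
            (abs_nonneg _) zero_le_one
      _ = η := one_mul η

end Vale.Agent.P110
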