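import Mathlib.MeasureTheory.Measure.Lebesgue.Basic
import Vale.Agent.P110.Flat
import Vale.Agent.P110.Predictor
import Vale.Agent.P110.Det

/-! The phase slope of a near-flat Littlewood polynomial takes all values on every arc. -/

namespace Vale.Agent.P110

open scoped BigOperators
open Complex Finset MeasureTheory AddMonoidAlgebra

lemma Good.continuous_af {x : ℕ → ℝ} {N : ℕ} {C : ℝ} (h : Good x N C) : Continuous (af x N) := by
  refine Complex.continuous_re.comp (continuous_iff_continuousAt.2 fun θ => ?_)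
  have := h.qf_differentiableAt (θ := θ) (w := (θ : ℂ)) (by simpa using h.R_pos.le)
  exact ContinuousAt.comp (g := qf x N) this.continuousAt Complex.continuous_ofReal.continuousAt

lemma exists_bump_poly {α β ω η : ℝ} (hω : 0 < ω) (hη : 0 < η) :
    ∃ Q : Polynomial ℝ, ∀ y : ℝ, |y| ≤ 48 → |Q.eval y| ≤ 1 + η ∧
      (y ∉ Set.Ioo α β → |Q.eval y| ≤ η) ∧
      (α + ω ≤ y → y ≤ β - ω → |Q.eval y - 1| ≤ η) := by
  set h : ℝ → ℝ := fun y => max 0 (min 1 (min (y - α) (β - y) / ω)) with hh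
  obtain ⟨Q, hQ⟩ := exists_polynomial_near_of_continuousOn (-48) 48 h
    (by fun_prop : Continuous h).continuousOn η hη
  refine ⟨Q, fun y hy => ?_⟩
  have hy' := abs_le.1 hy
  obtain ⟨h1, h2⟩ := abs_lt.1 (hQ y ⟨hy'.1, hy'.2⟩)
  have hh0 : 0 ≤ h y := le_max_left _ _
  have hh1 : h y ≤ 1 := max_le zero_le_one (min_le_left _ _)
  refine ⟨abs_le.2 ⟨by linarith, by linarith⟩, fun hout => ?_, fun ha hb => ?_⟩
  · have : h y = 0 := by
      refine max_eq_left ((min_le_right _ _).trans ?_)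
      refine div_nonpos_of_nonpos_of_nonneg ?_ hω.le
      simp only [Set.mem_Ioo, not_and_or, not_lt] at hout
      rcases hout with h | h
      · exact (min_le_left _ _).trans (by linarith)
      · exact (min_le_right _ _).trans (by linarith)
    exact abs_le.2 ⟨by linarith, by linarith⟩
  · have : h y = 1 := by
      simp only [hh]
      rw [min_eq_left ((le_div_iff₀ hω).2 (by rw [one_mul]; exact le_min (by linarith) (by linarith)))]
      exact max_eq_right zero_le_one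
    exact abs_le.2 ⟨by linarith, by linarith⟩

/-- The weighted, normalised two-sided sequence. -/
noncomputable def ySeq (x : ℕ → ℝ) (N : ℕ) (Q : Polynomial ℝ) (n : ℤ) : ℂ :=
  if 0 ≤ n ∧ n < N then ((x n.toNat * Q.eval ((n.toNat : ℝ) / N) : ℝ) : ℂ) else 0

lemma FQ_eq (x : ℕ → ℝ) (N : ℕ) (Q : Polynomial ℝ) (θ : ℝ) :
    FQ x N Q θ = (∑ k ∈ range N, ySeq x N Q k * Complex.exp ((k : ℂ) * I * (θ : ℂ))) / (Real.sqrt N : ℂ) := by
  unfold FQ
  congr 1
  refine sum_congr rfl fun k hk => ?_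
  simp [ySeq, mem_range.1 hk]

lemma energy_eq (c : TP) (x : ℕ → ℝ) (N : ℕ) (Q : Polynomial ℝ) :
    ∃ U : Finset ℤ, (∀ k : ℕ, k < N → (k : ℤ) ∈ U) ∧ ∀ s : ℝ,
      ∫ θ in s..s + 2 * Real.pi, ‖ev θ c * FQ x N Q θ‖ ^ 2
        = 2 * Real.pi * ((∑ n ∈ U, ‖act c (ySeq x N Q) n‖ ^ 2) / N) := by
  obtain ⟨U, hU, hUe⟩ := ev_mul_sum c (ySeq x N Q) N (fun n hn => by
    simp only [ySeq]; rw [if_neg]; omega)
  refine ⟨U, hU, fun s => ?_⟩
  have e : ∀ θ : ℝ, ‖ev θ c * FQ x N Q θ‖ ^ 2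
      = ‖∑ n ∈ U, act c (ySeq x N Q) n * Complex.exp ((n : ℂ) * I * (θ : ℂ))‖ ^ 2 / N := by
    intro θ
    rw [FQ_eq, ← mul_div_assoc, hUe, norm_div, div_pow, Complex.norm_real, Real.norm_eq_abs, sq_abs,
      Real.sq_sqrt (Nat.cast_nonneg N)]
  simp only [e]
  rw [intervalIntegral.integral_div, integral_norm_sq_trig, mul_div_assoc]

/-- A geometric kernel. -/
noncomputable def kernelTP (p L : ℕ) : TP :=
  ∑ j ∈ range L, single ((j : ℤ) * p) (1 : ℂ)

lemma kernelTP_energy (p L : ℕ) (hp : 0 < p) (s : ℝ) :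
    ∫ θ in s..s + 2 * Real.pi, ‖ev θ (kernelTP p L)‖ ^ 2 = 2 * Real.pi * L := by
  have hinj : Set.InjOn (fun j : ℕ => (j : ℤ) * p) (range L) := fun a _ b _ h => by
    simpa [hp.ne'] using h
  have e : ∀ θ : ℝ, ev θ (kernelTP p L)
      = ∑ n ∈ (range L).image (fun j : ℕ => (j : ℤ) * p), (1 : ℂ) * Complex.exp ((n : ℂ) * I * (θ : ℂ)) := by
    intro θ
    rw [sum_image hinj, kernelTP, map_sum]
    simp [ev_single]
  simp only [e]
  rw [integral_norm_sq_trig, sum_image hinj]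
  simp

/-- Deterministic counting core: periodicity forces energy in the geometric kernel. -/
lemma kernel_lower {x : ℕ → ℝ} (hx : ∀ k, x k = 1 ∨ x k = -1) {N d p L R : ℕ} {a : ℕ → ℂ}
    {Q : Polynomial ℝ} (hp : p = (2 ^ d).factorial) (hR : R = L * p + 2 ^ d + d + p + 1)
    {A B : ℝ} (hA : 0 ≤ A) (hB : B ≤ 1)
    (hQ : ∀ y, A ≤ y → y ≤ B → |Q.eval y - 1| ≤ 1 / 2)
    {bad : Finset ℕ} (hbad : ∀ n : ℕ, A * N + d ≤ n → (n : ℝ) + 1 ≤ B * N → n ∉ bad →
      ‖(x n : ℂ) + ∑ i ∈ range d, a i * (x (n - (i + 1)) : ℂ)‖ < 1) :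
    (L : ℝ) ^ 2 / 4 * ((B - A) * N - 3 * R - 2 - R * bad.card)
      ≤ ∑ k ∈ range N, ‖act (kernelTP p L) (ySeq x N Q) k‖ ^ 2 := by
  classical
  have h2d : 0 < 2 ^ d := Nat.two_pow_pos d
  have hRn : R = L * p + 2 ^ d + d + p + 1 := hR
  set lo : ℕ := ⌈A * N⌉₊ + R with hlo
  set hi : ℕ := ⌊B * N⌋₊ - R with hhi
  set forbidden : Finset ℕ := bad.biUnion fun b => Finset.Ico (b - p) (b - p + R) with hforb
  set goodSet : Finset ℕ := Finset.Ico lo hi \ forbidden with hgs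
  have hsub : goodSet ⊆ range N := by
    intro n hn
    have h1 := mem_Ico.1 (mem_sdiff.1 hn).1
    have h2 : ⌊B * (N : ℝ)⌋₊ ≤ N := by
      rcases le_total 0 (B * (N : ℝ)) with h | h
      · have := Nat.floor_le h
        exact_mod_cast this.trans (mul_le_of_le_one_left (Nat.cast_nonneg N) hB)
      · rw [Nat.floor_of_nonpos h]; exact Nat.zero_le _
    exact mem_range.2 (by omega)
  have hcount : (B - A) * N - 3 * R - 2 - R * bad.card ≤ (goodSet.card : ℝ) := by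
    have h1 : ((Finset.Ico lo hi).card : ℝ) ≤ goodSet.card + forbidden.card := by
      exact_mod_cast Finset.card_le_card_sdiff_add_card
    have h2 : (forbidden.card : ℝ) ≤ bad.card * R := by
      have : forbidden.card ≤ bad.card * R := Finset.card_biUnion_le_card_mul _ _ _ fun b _ => by simp
      exact_mod_cast this
    have h3 : (hi : ℝ) - lo ≤ ((Finset.Ico lo hi).card : ℝ) := by
      rw [Nat.card_Ico, sub_le_iff_le_add]
      exact_mod_cast (by omega : hi ≤ hi - lo + lo)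
    have h4 : (⌊B * N⌋₊ : ℝ) ≤ (hi : ℝ) + R := by
      exact_mod_cast (by omega : ⌊B * (N : ℝ)⌋₊ ≤ hi + R)
    have h5 := Nat.lt_floor_add_one (B * (N : ℝ))
    have h6 := Nat.ceil_lt_add_one (show 0 ≤ A * (N : ℝ) by positivity)
    have h7 : (lo : ℝ) = (⌈A * N⌉₊ : ℝ) + R := by rw [hlo]; push_cast; ring
    linarith
  set X : ℤ → ℝ := fun n => x n.toNat with hX
  have hper : ∀ n ∈ goodSet, ∀ j : ℕ, j ≤ L → X ((n : ℤ) - (j * p : ℕ)) = X n := by
    intro n hn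
    obtain ⟨hn1, hn2⟩ := mem_sdiff.1 hn
    obtain ⟨hn1a, hn1b⟩ := mem_Ico.1 hn1
    intro j
    induction j with
    | zero => simp
    | succ j ih =>
      intro hj
      rw [← ih (by omega)]
      have e : (n : ℤ) - (j * p : ℕ) = ((n : ℤ) - ((j + 1) * p : ℕ)) + p := by push_cast; ring
      rw [e]
      refine (periodic_of_predict X d a _ p hp (fun m _ _ => hx _) fun m h1 h2 => ?_).symm
      have hjp : (j + 1) * p ≤ L * p := Nat.mul_le_mul_right p hj
      have hm0 : (n : ℤ) - (R : ℕ) + d + p ≤ m := by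
        rw [hR]; push_cast at h1 ⊢
        have : ((((j + 1) * p : ℕ)) : ℤ) ≤ ((L * p : ℕ) : ℤ) := by exact_mod_cast hjp
        push_cast at this
        linarith
      have hjp0 : p ≤ (j + 1) * p := Nat.le_mul_of_pos_left p (by omega)
      have hmle : m ≤ n := by
        have : ((p : ℕ) : ℤ) ≤ (((j + 1) * p : ℕ) : ℤ) := by exact_mod_cast hjp0
        linarith
      obtain ⟨m', rfl⟩ : ∃ m' : ℕ, m = (m' : ℤ) := ⟨m.toNat, by omega⟩
      have hm1 : A * N + d ≤ (m' : ℝ) := by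
        have hnat : ⌈A * (N : ℝ)⌉₊ + d ≤ m' := by omega
        have := Nat.le_ceil (A * (N : ℝ))
        have h' : ((⌈A * (N : ℝ)⌉₊ + d : ℕ) : ℝ) ≤ m' := by exact_mod_cast hnat
        push_cast at h'
        linarith
      have hm2 : (m' : ℝ) + 1 ≤ B * N := by
        have hnat : m' + 1 ≤ ⌊B * (N : ℝ)⌋₊ := by omega
        have hpos : 0 < ⌊B * (N : ℝ)⌋₊ := by omega
        have := Nat.floor_le (le_of_lt ((Nat.floor_pos.1 hpos).trans_lt' one_pos))
        have h' : ((m' + 1 : ℕ) : ℝ) ≤ (⌊B * (N : ℝ)⌋₊ : ℝ) := by exact_mod_cast hnat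
        push_cast at h'
        linarith
      have h2dz : ((2 ^ d : ℕ) : ℤ) = (2 : ℤ) ^ d := by push_cast; rfl
      have hnb : m' ∉ bad := fun hb => hn2 (mem_biUnion.2 ⟨m', hb, mem_Ico.2 ⟨by omega, by omega⟩⟩)
      have := hbad m' hm1 hm2 hnb
      simp only [hX, Int.toNat_natCast]
      refine lt_of_eq_of_lt ?_ this
      congr 2
      refine sum_congr rfl fun i _ => ?_
      congr 3
      omega
  refine le_trans ?_ (sum_le_sum_of_subset_of_nonneg hsub fun k _ _ => by positivity)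
  refine le_trans (mul_le_mul_of_nonneg_left hcount (by positivity)) ?_
  rw [mul_comm, ← nsmul_eq_mul, ← sum_const]
  refine sum_le_sum fun n hn => ?_
  obtain ⟨hn1a, hn1b⟩ := mem_Ico.1 (mem_sdiff.1 hn).1
  have hN : 0 < N := by have := mem_range.1 (hsub hn); omega
  have e : act (kernelTP p L) (ySeq x N Q) n
      = ((x n * ∑ j ∈ range L, Q.eval (((n - j * p : ℕ) : ℝ) / N) : ℝ) : ℂ) := by
    rw [kernelTP, act_sum]
    push_cast
    rw [mul_sum]
    refine sum_congr rfl fun j hj => ?_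
    have hjp : j * p ≤ L * p := Nat.mul_le_mul_right p (mem_range.1 hj).le
    rw [act_single, one_mul, ← Nat.cast_mul, ← Nat.cast_sub (by omega), ySeq,
      if_pos ⟨by omega, by have := mem_range.1 (hsub hn); omega⟩]
    have hxx := hper n hn j (mem_range.1 hj).le
    simp only [hX] at hxx
    rw [← Nat.cast_sub (by omega), Int.toNat_natCast, Int.toNat_natCast] at hxx
    rw [Int.toNat_natCast, hxx]
    push_cast
    ring
  rw [e, Complex.norm_real, Real.norm_eq_abs, sq_abs, mul_pow,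
    show x n ^ 2 = 1 by rcases hx n with h | h <;> simp [h], one_mul]
  have hterm : ∀ j ∈ range L, (1 / 2 : ℝ) ≤ Q.eval (((n - j * p : ℕ) : ℝ) / N) := by
    intro j hj
    have hjp : j * p ≤ L * p := Nat.mul_le_mul_right p (mem_range.1 hj).le
    have hN' : (0 : ℝ) < N := by exact_mod_cast hN
    have h1 : A ≤ ((n - j * p : ℕ) : ℝ) / N := by
      rw [le_div_iff₀ hN']
      exact (Nat.le_ceil _).trans (by exact_mod_cast (by omega : ⌈A * (N : ℝ)⌉₊ ≤ n - j * p))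
    have h2 : ((n - j * p : ℕ) : ℝ) / N ≤ B := by
      rw [div_le_iff₀ hN']
      have hpos : 0 < ⌊B * (N : ℝ)⌋₊ := by omega
      exact le_trans (by exact_mod_cast (by omega : n - j * p ≤ ⌊B * (N : ℝ)⌋₊))
        (Nat.floor_le (le_of_lt ((Nat.floor_pos.1 hpos).trans_lt' one_pos)))
    linarith [(abs_le.1 (hQ _ h1 h2)).1]
  have hs : (L : ℝ) / 2 ≤ ∑ j ∈ range L, Q.eval (((n - j * p : ℕ) : ℝ) / N) := by
    have := card_nsmul_le_sum _ _ _ hterm
    simp at this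
    linarith
  nlinarith [Nat.cast_nonneg (α := ℝ) L]

lemma energy_arc {f g : ℝ → ℂ} (hf : Continuous f) (hg : Continuous g) {η G θ₀ δ : ℝ} {E : Set ℝ}
    (hη0 : 0 < η) (hη1 : η ≤ 1 / 4) (hEm : MeasurableSet E) (hcon : volume E < ENNReal.ofReal η)
    (hG : ∀ θ, ‖f θ‖ ≤ G)
    (hsmall : ∀ θ, |θ - θ₀| ≤ Real.pi → δ ≤ |θ - θ₀| → ‖f θ‖ ≤ η) (hF4 : ∀ θ, ‖g θ‖ ≤ 4)
    (hFout : ∀ θ, |θ - θ₀| < δ → θ ∉ E → ‖g θ‖ ≤ 3 * η) :
    ∫ θ in (θ₀ - Real.pi)..(θ₀ - Real.pi) + 2 * Real.pi, ‖f θ * g θ‖ ^ 2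
      ≤ η * (G ^ 2 * 25 + 25) * 8 := by
  have hpi := Real.pi_pos
  have hEvol : (volume E).toReal ≤ η := by
    have := (ENNReal.toReal_lt_toReal (ne_top_of_lt hcon) ENNReal.ofReal_ne_top).2 hcon
    rw [ENNReal.toReal_ofReal hη0.le] at this
    exact this.le
  set bnd : ℝ → ℝ := fun θ => η * (G ^ 2 * 9 + 16) + E.indicator (fun _ => G ^ 2 * 16) θ with hbnd
  have hEint : Integrable (E.indicator fun _ => G ^ 2 * 16) :=
    (integrable_indicator_iff hEm).2 (integrableOn_const (ne_top_of_lt hcon))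
  have hbi : ∀ u v : ℝ, IntervalIntegrable bnd volume u v := fun u v =>
    intervalIntegrable_const.add hEint.intervalIntegrable
  have hle : ∀ θ ∈ Set.Icc (θ₀ - Real.pi) (θ₀ - Real.pi + 2 * Real.pi),
      ‖f θ * g θ‖ ^ 2 ≤ bnd θ := by
    intro θ hθ
    rw [norm_mul, mul_pow]
    have hind : 0 ≤ E.indicator (fun _ => G ^ 2 * 16) θ :=
      Set.indicator_nonneg (fun _ _ => by positivity) θ
    have hG2 : ‖f θ‖ ^ 2 ≤ G ^ 2 := pow_le_pow_left₀ (norm_nonneg _) (hG θ) 2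
    have hη2 : η ^ 2 ≤ η := by nlinarith
    by_cases hin : δ ≤ |θ - θ₀|
    · have h1 := hsmall θ (abs_le.2 ⟨by linarith [hθ.1], by linarith [hθ.2]⟩) hin
      calc ‖f θ‖ ^ 2 * ‖g θ‖ ^ 2 ≤ η ^ 2 * 4 ^ 2 :=
            mul_le_mul (pow_le_pow_left₀ (norm_nonneg _) h1 2)
              (pow_le_pow_left₀ (norm_nonneg _) (hF4 θ) 2) (by positivity) (by positivity)
        _ ≤ η * (G ^ 2 * 9 + 16) := by nlinarith [mul_nonneg hη0.le (sq_nonneg G)]
        _ ≤ _ := le_add_of_nonneg_right hind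
    · push Not at hin
      by_cases hmem : θ ∈ E
      · simp only [hbnd, Set.indicator_of_mem hmem]
        calc ‖f θ‖ ^ 2 * ‖g θ‖ ^ 2 ≤ G ^ 2 * 4 ^ 2 :=
              mul_le_mul hG2 (pow_le_pow_left₀ (norm_nonneg _) (hF4 θ) 2) (by positivity) (by positivity)
          _ ≤ _ := by nlinarith [mul_nonneg hη0.le (sq_nonneg G)]
      · calc ‖f θ‖ ^ 2 * ‖g θ‖ ^ 2 ≤ G ^ 2 * (3 * η) ^ 2 :=
              mul_le_mul hG2 (pow_le_pow_left₀ (norm_nonneg _) (hFout θ hin hmem) 2) (by positivity)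
                (by positivity)
          _ ≤ η * (G ^ 2 * 9 + 16) := by nlinarith [mul_le_mul_of_nonneg_left hη2 (sq_nonneg G)]
          _ ≤ _ := le_add_of_nonneg_right hind
  refine (intervalIntegral.integral_mono_on (by linarith)
    (((hf.mul hg).norm.pow 2).intervalIntegrable _ _) (hbi _ _) hle).trans ?_
  rw [intervalIntegral.integral_add intervalIntegrable_const hEint.intervalIntegrable,
    intervalIntegral.integral_const]
  have h1 : ∫ θ in (θ₀ - Real.pi)..(θ₀ - Real.pi + 2 * Real.pi), E.indicator (fun _ => G ^ 2 * 16) θ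
      ≤ η * (G ^ 2 * 16) := by
    rw [intervalIntegral.integral_of_le (by linarith)]
    refine (setIntegral_le_integral hEint
      (Filter.Eventually.of_forall fun θ => Set.indicator_nonneg (fun _ _ => by positivity) θ)).trans ?_
    rw [integral_indicator_const _ hEm, smul_eq_mul]
    exact mul_le_mul_of_nonneg_right hEvol (by positivity)
  simp only [smul_eq_mul, add_sub_cancel_left]
  nlinarith [h1, Real.pi_lt_d2, mul_nonneg hη0.le (sq_nonneg G)]

lemma predict_of_small {x : ℕ → ℝ} (hx : ∀ k, x k = 1 ∨ x k = -1) {N d : ℕ} (hN : 0 < N)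
    {Q : Polynomial ℝ} {a : ℕ → ℂ} {T Φ : TP} {η S1 A B : ℝ} (hη0 : 0 < η) (hη1 : η ≤ 1 / 4)
    (hA : 0 ≤ A) (hB : B ≤ 1)
    (hS1 : S1 = 1 + ∑ i ∈ range d, ‖a i‖) (hS1η : S1 * η ≤ 1 / 20)
    (hTact : ∀ y k, act T y k = y k + ∑ i ∈ range d, a i * y (k - ((i : ℤ) + 1)))
    (hΦ : nrm (T - T * Φ) ≤ 1 / 5) (hys : ∀ n : ℤ, ‖ySeq x N Q n‖ ≤ 1 + η)
    (hQ : ∀ y, A ≤ y → y ≤ B → |Q.eval y - 1| ≤ η) {n : ℕ} (h1 : A * N + d ≤ n)
    (h2 : (n : ℝ) + 1 ≤ B * N) (he : ‖act (T * Φ) (ySeq x N Q) n‖ < 1 / 2) :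
    ‖(x n : ℂ) + ∑ i ∈ range d, a i * (x (n - (i + 1)) : ℂ)‖ < 1 := by
  have hN' : (0 : ℝ) < N := by exact_mod_cast hN
  have hnN : n < N := by
    have : (n : ℝ) < N := by nlinarith
    exact_mod_cast this
  have hTy : ‖act T (ySeq x N Q) n‖ ≤ ‖act (T * Φ) (ySeq x N Q) n‖ + 1 / 5 * (1 + η) := by
    have : act T (ySeq x N Q) n = act (T - T * Φ) (ySeq x N Q) n + act (T * Φ) (ySeq x N Q) n := by
      rw [← act_add, sub_add_cancel]
    rw [this]
    refine (norm_add_le _ _).trans ?_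
    have := (act_norm_le (T - T * Φ) _ hys (n : ℤ)).trans
      (mul_le_mul_of_nonneg_right hΦ (by linarith))
    linarith
  have hdn : d ≤ n := by
    have : (d : ℝ) ≤ n := by nlinarith
    exact_mod_cast this
  have hdiff : ∀ m : ℕ, A * N ≤ m → (m : ℝ) ≤ B * N → m < N →
      ‖(x m : ℂ) - ySeq x N Q m‖ ≤ η := by
    intro m hm1 hm2 hm3
    rw [ySeq, if_pos ⟨by omega, by exact_mod_cast hm3⟩, Int.toNat_natCast, ← Complex.ofReal_sub,
      Complex.norm_real, Real.norm_eq_abs, show x m - x m * Q.eval ((m : ℝ) / N)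
        = x m * (1 - Q.eval ((m : ℝ) / N)) by ring, abs_mul,
      show |x m| = 1 by rcases hx m with h | h <;> simp [h], one_mul, abs_sub_comm]
    exact hQ _ ((le_div_iff₀ hN').2 hm1) ((div_le_iff₀ hN').2 hm2)
  rw [hTact] at hTy
  have hsum : ‖((x n : ℂ) + ∑ i ∈ range d, a i * (x (n - (i + 1)) : ℂ))
      - (ySeq x N Q n + ∑ i ∈ range d, a i * ySeq x N Q ((n : ℤ) - ((i : ℤ) + 1)))‖ ≤ S1 * η := by
    rw [add_sub_add_comm, ← sum_sub_distrib, hS1, add_mul, one_mul, sum_mul]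
    refine (norm_add_le _ _).trans (add_le_add (hdiff n (by linarith [Nat.cast_nonneg (α := ℝ) d])
      (by linarith) hnN) ((norm_sum_le _ _).trans (sum_le_sum fun i hi => ?_)))
    have hid := mem_range.1 hi
    have e2 : (n : ℤ) - ((i : ℤ) + 1) = ((n - (i + 1) : ℕ) : ℤ) := by omega
    rw [e2, ← mul_sub, norm_mul]
    refine mul_le_mul_of_nonneg_left (hdiff _ ?_ ?_ (by omega)) (norm_nonneg _)
    · rw [Nat.cast_sub (by omega)]
      have : ((i + 1 : ℕ) : ℝ) ≤ d := by exact_mod_cast hid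
      linarith
    · have : ((n - (i + 1) : ℕ) : ℝ) ≤ n := by exact_mod_cast Nat.sub_le n (i + 1)
      linarith
  have := norm_le_norm_sub_add ((x n : ℂ) + ∑ i ∈ range d, a i * (x (n - (i + 1)) : ℂ))
    (ySeq x N Q n + ∑ i ∈ range d, a i * ySeq x N Q ((n : ℤ) - ((i : ℤ) + 1)))
  linarith

lemma kernel_upper {x : ℕ → ℝ} {N p L : ℕ} {Q : Polynomial ℝ} (hN : 0 < N) (hp0 : 0 < p)
    (hFc : Continuous fun θ : ℝ => FQ x N Q θ) (hF4 : ∀ θ, ‖FQ x N Q θ‖ ≤ 4) :
    ∑ k ∈ range N, ‖act (kernelTP p L) (ySeq x N Q) k‖ ^ 2 ≤ 16 * L * N := by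
  obtain ⟨U', hU', hUe'⟩ := energy_eq (kernelTP p L) x N Q
  have hN' : (0 : ℝ) < N := by exact_mod_cast hN
  have hpi := Real.pi_pos
  have h1 : ∫ θ in (0 : ℝ)..0 + 2 * Real.pi, ‖ev θ (kernelTP p L) * FQ x N Q θ‖ ^ 2
      ≤ 16 * (2 * Real.pi * L) := by
    rw [← kernelTP_energy p L hp0 0, ← intervalIntegral.integral_const_mul]
    refine intervalIntegral.integral_mono_on (by linarith)
      ((((continuous_ev _).mul hFc).norm.pow 2).intervalIntegrable _ _)
      ((((continuous_ev _).norm.pow 2).const_mul 16 |>.intervalIntegrable) _ _) fun θ _ => ?_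
    rw [norm_mul, mul_pow, mul_comm (16 : ℝ)]
    exact mul_le_mul_of_nonneg_left
      ((pow_le_pow_left₀ (norm_nonneg _) (hF4 θ) 2).trans (by norm_num)) (sq_nonneg _)
  rw [hUe', show 16 * (2 * Real.pi * (L : ℝ)) = 2 * Real.pi * (16 * L) by ring] at h1
  have h2 := le_of_mul_le_mul_left h1 (by positivity)
  rw [div_le_iff₀ hN'] at h2
  refine le_trans ?_ h2
  rw [← sum_image (f := fun n : ℤ => ‖act (kernelTP p L) (ySeq x N Q) n‖ ^ 2)
    (g := fun k : ℕ => (k : ℤ)) (fun u _ v _ h => Nat.cast_injective h)]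
  exact sum_le_sum_of_subset_of_nonneg
    (fun n hn => by obtain ⟨k, hk, rfl⟩ := mem_image.1 hn; exact hU' k (mem_range.1 hk))
    fun _ _ _ => by positivity

lemma final_contra {L R N N₁ cardb BA D η G : ℝ} {α β : ℝ}
    (hchain : L ^ 2 / 4 * (BA * N - 3 * R - 2 - R * cardb) ≤ 16 * L * N) (hN : 0 < N)
    (hBA : BA = (β - α) / 2) (hN1 : N₁ ≤ N) (hN₁ : (8 * R + 8) * 16 / (β - α) < N₁)
    (hL : 800 / (β - α) < L) (hαβ : α < β) (hR : 0 < R)
    (hcard : cardb ≤ 8 * η * (G ^ 2 * 25 + 25) * N)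
    (hD : 100 * R * (G ^ 2 * 25 + 25) * 4 * 100 / (β - α) ≤ D) (hη : η = 1 / D) (_hG : 0 ≤ G) : False := by
  have hw : 0 < β - α := by linarith
  have hK : 0 < G ^ 2 * 25 + 25 := by positivity
  have hDp : 0 < D := lt_of_lt_of_le (by positivity) hD
  rw [div_lt_iff₀ hw] at hN₁ hL
  rw [div_le_iff₀ hw] at hD
  have h1 : R * (8 * η * (G ^ 2 * 25 + 25)) ≤ (β - α) / 16 := by
    rw [hη]
    field_simp
    nlinarith
  have h2 : R * cardb ≤ (β - α) / 16 * N := by
    calc R * cardb ≤ R * (8 * η * (G ^ 2 * 25 + 25) * N) := mul_le_mul_of_nonneg_left hcard hR.le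
      _ = R * (8 * η * (G ^ 2 * 25 + 25)) * N := by ring
      _ ≤ _ := mul_le_mul_of_nonneg_right h1 hN.le
  have h3 : 3 * R + 2 ≤ (β - α) / 16 * N := by
    nlinarith [mul_le_mul_of_nonneg_right hN1 hw.le]
  have hL0 : 0 < L := by nlinarith
  have h4 : L ^ 2 / 4 * ((β - α) / 4 * N) ≤ 16 * L * N := by
    refine le_trans (mul_le_mul_of_nonneg_left ?_ (by positivity)) hchain
    rw [hBA]; linarith [mul_nonneg hw.le hN.le]
  nlinarith [mul_lt_mul_of_pos_left hL (mul_pos hL0 hN)]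

theorem phaseSlope_full_support : ∀ α β s t : ℝ, 0 ≤ α → α < β → β ≤ 1 → s < t →
    ∃ c : ℝ, 0 < c ∧ ∃ η : ℝ, 0 < η ∧ ∃ N₀ : ℕ, ∀ (N : ℕ) (x : ℕ → ℝ), N₀ ≤ N →
      (∀ k, x k = 1 ∨ x k = -1) → NearFlat x N c →
        ENNReal.ofReal η
          ≤ volume {θ : ℝ | θ ∈ Set.Icc s t ∧ α < phaseSlope x N θ ∧ phaseSlope x N θ < β} := by
  intro α β s t hα hαβ hβ hst
  have hpi := Real.pi_pos
  set θ₀ := (s + t) / 2 with hθ₀
  set δ := min ((t - s) / 2) 1 with hδ
  have hδ0 : 0 < δ := lt_min (by linarith) one_pos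
  obtain ⟨d, a, T, G, hG, hTact, hΦex⟩ := exists_predictor θ₀ δ hδ0 (min_le_right _ _)
  set ω := (β - α) / 4 with hω
  have hω0 : 0 < ω := by rw [hω]; linarith
  set p := (2 ^ d).factorial with hp
  have hp0 : 0 < p := Nat.factorial_pos _
  obtain ⟨L, hL⟩ := exists_nat_gt (800 / (β - α))
  set R := L * p + 2 ^ d + d + p + 1 with hR
  have hL0 : (0 : ℝ) < L := lt_trans (div_pos (by norm_num) (by linarith)) hL
  have hR0 : (0 : ℝ) < R := by exact_mod_cast Nat.succ_pos _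
  set S1 : ℝ := 1 + ∑ i ∈ range d, ‖a i‖ with hS1
  have hS1' : 1 ≤ S1 := by rw [hS1]; linarith [sum_nonneg (s := range d) fun i _ => norm_nonneg (a i)]
  -- small parameters
  set D : ℝ := 100 * R * (G ^ 2 * 25 + 25) * 4 * 100 / (β - α) + 20 * S1 + 4 with hD
  have hD0 : 4 ≤ D := by
    rw [hD]
    have : 0 ≤ 100 * (R : ℝ) * (G ^ 2 * 25 + 25) * 4 * 100 / (β - α) :=
      div_nonneg (by positivity) (by linarith)
    nlinarith
  set η := 1 / D with hη
  have hη0 : 0 < η := by positivity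
  have hη1 : η ≤ 1 / 4 := by rw [hη]; exact one_div_le_one_div_of_le (by norm_num) hD0
  obtain ⟨Φ, hΦnrm, hΦG, hΦsmall⟩ := hΦex η hη0 (by linarith)
  obtain ⟨Q, hQ⟩ := exists_bump_poly (α := α) (β := β) hω0 hη0
  obtain ⟨K, hK0, hK⟩ := weight_local Q
  set C := max 4 (K / η) with hC
  have hC4 : 4 ≤ C := le_max_left _ _
  obtain ⟨N₁, hN₁⟩ := exists_nat_gt ((8 * (R : ℝ) + 8) * 16 / (β - α))
  refine ⟨Real.exp (-C) / 6, by positivity, η, hη0, N₁ + 1, fun N x hN hx hflat => ?_⟩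
  have hNpos : 0 < N := by omega
  have hN' : (0 : ℝ) < N := by exact_mod_cast hNpos
  have hgood := good_of_nearFlat hNpos hC4 le_rfl hflat
  by_contra hcon
  push Not at hcon
  have hsame : {θ : ℝ | θ ∈ Set.Icc s t ∧ α < phaseSlope x N θ ∧ phaseSlope x N θ < β}
      = Set.Icc s t ∩ af x N ⁻¹' Set.Ioo α β := by
    ext θ; simp [af_eq_phaseSlope hNpos]
  rw [hsame] at hcon
  set E := Set.Icc s t ∩ af x N ⁻¹' Set.Ioo α β with hE
  have hEm : MeasurableSet E := measurableSet_Icc.inter (hgood.continuous_af.measurable measurableSet_Ioo)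
  -- bounds on the weighted polynomial
  have hKC : K / C ≤ η := by
    rw [div_le_iff₀ (by linarith)]
    have := le_max_right 4 (K / η)
    rw [div_le_iff₀ hη0, ← hC] at this
    linarith
  have hFbound : ∀ θ, ‖FQ x N Q θ‖ ≤ 2 * |Q.eval (af x N θ)| + η := by
    intro θ
    have h1 := (hK x N C hgood θ).trans hKC
    have h2 : ‖((Q.eval (af x N θ) : ℝ) : ℂ) * Fm x N 0 θ‖ ≤ 2 * |Q.eval (af x N θ)| := by
      rw [norm_mul, Complex.norm_real, Real.norm_eq_abs, mul_comm (2 : ℝ)]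
      exact mul_le_mul_of_nonneg_left (hgood.real_le θ) (abs_nonneg _)
    have := norm_add_le (FQ x N Q θ - ((Q.eval (af x N θ) : ℝ) : ℂ) * Fm x N 0 θ)
      (((Q.eval (af x N θ) : ℝ) : ℂ) * Fm x N 0 θ)
    rw [sub_add_cancel] at this
    linarith
  have hF4 : ∀ θ, ‖FQ x N Q θ‖ ≤ 4 := fun θ => by
    linarith [hFbound θ, (hQ _ (hgood.af_bound θ)).1]
  have hFout : ∀ θ, af x N θ ∉ Set.Ioo α β → ‖FQ x N Q θ‖ ≤ 3 * η := fun θ h => by
    linarith [hFbound θ, (hQ _ (hgood.af_bound θ)).2.1 h]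
  have hFc : Continuous fun θ : ℝ => FQ x N Q θ := by unfold FQ; fun_prop
  -- the energy of T Φ
  obtain ⟨U, hU, hUe⟩ := energy_eq (T * Φ) x N Q
  have hint : ∫ θ in (θ₀ - Real.pi)..(θ₀ - Real.pi) + 2 * Real.pi, ‖ev θ (T * Φ) * FQ x N Q θ‖ ^ 2
      ≤ η * (G ^ 2 * 25 + 25) * 8 := by
    refine energy_arc (δ := δ) (continuous_ev _) hFc hη0 hη1 hEm hcon hΦG (fun θ h1 h2 => ?_) hF4
      (fun θ h1 h2 => hFout θ fun ha => h2 ⟨?_, ha⟩)
    · simpa using hΦsmall (θ - θ₀) h1 h2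
    · obtain ⟨h3, h4⟩ := abs_lt.1 h1
      have := min_le_left ((t - s) / 2) 1
      rw [← hδ] at this
      constructor <;> (rw [hθ₀] at h3 h4; linarith)
  rw [hUe] at hint
  -- prediction failures
  set e : ℕ → ℂ := fun k => act (T * Φ) (ySeq x N Q) k with he
  set bad : Finset ℕ := (range N).filter fun k => 1 / 2 ≤ ‖e k‖ with hbad
  have hsub : ∑ k ∈ range N, ‖e k‖ ^ 2 ≤ ∑ n ∈ U, ‖act (T * Φ) (ySeq x N Q) n‖ ^ 2 := by
    rw [← sum_image (f := fun n : ℤ => ‖act (T * Φ) (ySeq x N Q) n‖ ^ 2) (g := fun k : ℕ => (k : ℤ))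
      (fun u _ v _ h => Nat.cast_injective h)]
    exact sum_le_sum_of_subset_of_nonneg
      (fun n hn => by obtain ⟨k, hk, rfl⟩ := mem_image.1 hn; exact hU k (mem_range.1 hk))
      fun _ _ _ => by positivity
  have hbadcard : (bad.card : ℝ) ≤ 8 * η * (G ^ 2 * 25 + 25) * N := by
    have h1 : (bad.card : ℝ) * (1 / 4) ≤ ∑ k ∈ range N, ‖e k‖ ^ 2 := by
      rw [← nsmul_eq_mul, ← sum_const]
      refine (sum_le_sum fun k hk => ?_).trans
        (sum_le_sum_of_subset_of_nonneg (filter_subset _ _) fun _ _ _ => by positivity)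
      have := (mem_filter.1 hk).2
      nlinarith
    have h2 := h1.trans hsub
    rw [mul_div_assoc'] at hint
    rw [div_le_iff₀ hN'] at hint
    nlinarith [Real.pi_gt_three, sum_nonneg (s := U) fun n _ => sq_nonneg ‖act (T * Φ) (ySeq x N Q) n‖]
  have hys : ∀ n : ℤ, ‖ySeq x N Q n‖ ≤ 1 + η := by
    intro n
    simp only [ySeq]
    split_ifs with h
    · rw [Complex.norm_real, Real.norm_eq_abs, abs_mul,
        show |x n.toNat| = 1 by rcases hx n.toNat with h | h <;> simp [h], one_mul]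
      refine (hQ _ ?_).1
      have hnat : n.toNat < N := by omega
      rw [abs_of_nonneg (by positivity), div_le_iff₀ hN']
      have : (n.toNat : ℝ) < N := by exact_mod_cast hnat
      linarith
    · simp; linarith
  -- the prediction holds off the bad set
  set A := α + ω with hAdef
  set B := β - ω with hBdef
  have hA0 : 0 ≤ A := by rw [hAdef]; linarith
  have hB1 : B ≤ 1 := by rw [hBdef]; linarith
  have hQmid : ∀ y, A ≤ y → y ≤ B → |Q.eval y - 1| ≤ η := fun y h1 h2 =>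
    (hQ y (abs_le.2 ⟨by linarith, by linarith⟩)).2.2 h1 h2
  have hS1η : S1 * η ≤ 1 / 20 := by
    have h20 : 20 * S1 ≤ D := by
      rw [hD]
      have : 0 ≤ 100 * (R : ℝ) * (G ^ 2 * 25 + 25) * 4 * 100 / (β - α) :=
        div_nonneg (by positivity) (by linarith)
      linarith
    rw [hη, mul_one_div, div_le_iff₀ (by linarith)]
    linarith
  have hpred : ∀ n : ℕ, A * N + d ≤ n → (n : ℝ) + 1 ≤ B * N → n ∉ bad →
      ‖(x n : ℂ) + ∑ i ∈ range d, a i * (x (n - (i + 1)) : ℂ)‖ < 1 := by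
    intro n h1 h2 h3
    refine predict_of_small hx hNpos hη0 hη1 hA0 hB1 hS1 hS1η hTact hΦnrm hys hQmid h1 h2 ?_
    by_contra hc
    have hnN : (n : ℝ) < N := by
      linarith [mul_le_of_le_one_left (Nat.cast_nonneg (α := ℝ) N) hB1]
    exact h3 (mem_filter.2 ⟨mem_range.2 (by exact_mod_cast hnN), not_lt.1 hc⟩)
  have hlow := kernel_lower hx hp hR hA0 hB1 (fun y h1 h2 => (hQmid y h1 h2).trans (by linarith)) hpred
  have hup := kernel_upper hNpos hp0 (L := L) hFc hF4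
  -- conclude
  exact final_contra (hlow.trans hup) hN'
    (by rw [hAdef, hBdef, hω]; ring) (by exact_mod_cast (by omega : N₁ ≤ N)) hN₁ hL hαβ hR0 hbadcard
    (le_of_le_of_eq (by linarith) hD.symm) hη hG

end Vale.Agent.P110
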